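import Claimed.Agent.R323.Defs

/-!
# Row 323, block K (KIT), K1: THE CONIC TUBE OF A `MinCone`.   helper245.   Prefix `kit_`.

`kit_tube (hS : MinCone k S) : ∃ U, GmtSimCone S U (gmtSimSd S) ∧ ∀ x ∈ U, ∀ t > 0, t • x ∈ U`.
* `kit_ibp`: the tangential divergence theorem of `Lib/Gmt/SimVar.gmtSim_ibp` from STATIONARITY instead of minimality.
* `kit_harm`: `Δu = 0` on `Σ` from stationarity (`X = ζ ∇u`: `div X - ⟪DX N, N⟫ = ζ Δu`; `spt μ = Σ`).
* `kit_conic`: the tube `U` of `gmtSim_tube_exists` is replaced by `{x | ∃ t > 0, t • x ∈ U}` (all data are homogeneous).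
-/

set_option autoImplicit false
open scoped ContDiff ENNReal NNReal RealInnerProductSpace Topology
open MeasureTheory Metric Set Filter

namespace Claimed.Agent.R323

open Claimed.Agent.Gmt

variable {k : ℕ}

/-- **tangential divergence theorem** for a stationary set with a tube. -/
theorem kit_ibp {S U : Set (E k)} {u : E k → ℝ} (hstat : ∀ X, GmtTestS univ X → gmtDelta S X = 0)
    (hc : GmtSimTube S U u) {Y : E k → E k} (hY : GmtTestS U Y) :
    ∫ x, (gmtDiv Y x - ⟪fderiv ℝ Y x (gradient u x), gradient u x⟫) ∂(gmtMu S) = 0 := by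
  have h := hstat Y ⟨hY.smooth, hY.cpt, subset_univ _⟩
  rw [← h]
  unfold gmtDelta
  have hnu := (ae_restrict_iff' hc.opn.measurableSet).1 hc.nu
  refine integral_congr_ae ?_
  filter_upwards [hnu] with x hx
  by_cases hxU : x ∈ U
  · rw [hx hxU, real_inner_comm]
  · have : fderiv ℝ Y x = 0 := fderiv_of_notMem_tsupport ℝ (fun h' => hxU (hY.sub h'))
    rw [this]
    simp

/-- the tangential divergence of `ζ ∇u` is `ζ Δu`. -/
theorem kit_div_normal {U : Set (E k)} (hU : IsOpen U) {u ζ : E k → ℝ} (hu : ContDiffOn ℝ ∞ u U)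
    (heik : ∀ x ∈ U, ‖gradient u x‖ = 1) (hζ : ContDiff ℝ ∞ ζ) {x : E k} (hx : x ∈ U) :
    gmtDiv (fun y => ζ y • gradient u y) x
      - ⟪fderiv ℝ (fun y => ζ y • gradient u y) x (gradient u x), gradient u x⟫
      = ζ x * gmtDiv (gradient u) x := by
  have hN : ⟪gradient u x, gradient u x⟫ = 1 := by
    rw [real_inner_self_eq_norm_sq, heik x hx]; norm_num
  rw [gmtSim_div_eq_tr, gmtSim_div_eq_tr, gmtSimV_fderiv hU hu hζ hx]
  have h1 : gmtSimTr (gmtSimR1 (gradient u x) (gradient ζ x) + ζ x • gmtSimH u x)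
      = ⟪gradient ζ x, gradient u x⟫ + ζ x * gmtSimTr (gmtSimH u x) := by
    unfold gmtSimTr
    simp only [_root_.add_apply, _root_.smul_apply, gmtSimJ_r1_apply,
      inner_add_left, inner_smul_left, Finset.sum_add_distrib, ← Finset.mul_sum]
    congr 1
    rw [gmtSim_inner_eq_sum]
    refine Finset.sum_congr rfl fun i _ => ?_
    rw [gmtSim_inner_eb, gmtSim_inner_eb]
    simp
  rw [h1]
  simp only [_root_.add_apply, _root_.smul_apply, gmtSimJ_r1_apply,
    gmtSim_H_gradient hU hu heik hx, smul_zero, add_zero, inner_smul_left, hN]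
  simp [gmtSimH]

/-- **the mean curvature of a stationary set vanishes.** -/
theorem kit_harm {S U : Set (E k)} {u : E k → ℝ} (hlf : GmtLF S univ)
    (hstat : ∀ X, GmtTestS univ X → gmtDelta S X = 0) (hc : GmtSimTube S U u) :
    ∀ x ∈ U, u x = 0 → gmtDiv (gradient u) x = 0 := by
  intro x hx hx0
  have hU := hc.opn
  have hS : MeasurableSet S := hlf.1
  have hbd : x ∈ gmtBd S := (hc.zero_iff x hx).1 hx0
  -- `Δu` is continuous on `U`
  have hcont : ContinuousOn (gmtDiv (gradient u)) U := by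
    have h1 := gmtSim_contDiffOn_H hU hc.smooth
    have h2 : gmtDiv (gradient u) = fun y => ∑ i, ⟪gmtSimH u y (eb i), eb i⟫ := by
      funext y
      rw [gmtSim_div_eq_tr]
      rfl
    rw [h2]
    refine continuousOn_finsetSum _ fun i _ => ?_
    exact (h1.continuousOn.clm_apply continuousOn_const).inner continuousOn_const
  -- the key: for every sign
  have key : ∀ σ : ℝ, (σ = 1 ∨ σ = -1) → ¬ 0 < σ * gmtDiv (gradient u) x := by
    intro σ hσ hpos
    have hcσ : ContinuousOn (fun y => σ * gmtDiv (gradient u) y) U := continuousOn_const.mul hcont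
    have hnh : ∀ᶠ y in 𝓝 x, y ∈ U ∧ 0 < σ * gmtDiv (gradient u) y :=
      Filter.Eventually.and (hU.mem_nhds hx)
        ((hcσ.continuousAt (hU.mem_nhds hx)).eventually (lt_mem_nhds hpos))
    obtain ⟨r, hr, hball⟩ := Metric.eventually_nhds_iff_ball.1 hnh
    obtain ⟨χ, hχ, hχ1, hχ01⟩ := gmtSim_exists_cutoff (isCompact_singleton (x := x))
      (isOpen_ball (x := x) (ε := r)) (by simpa using hr)
    have hχU : GmtTestS0 U χ := ⟨hχ.smooth, hχ.cpt, hχ.sub.trans fun y hy => (hball y hy).1⟩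
    have hY : GmtTestS U (fun y => χ y • gradient u y) :=
      gmtSim_test_smul hU (gmtSim_contDiffOn_gradient hU hc.smooth) hχU
    have h0 := kit_ibp hstat hc hY
    have e1 : ∀ y, gmtDiv (fun y => χ y • gradient u y) y
        - ⟪fderiv ℝ (fun y => χ y • gradient u y) y (gradient u y), gradient u y⟫
        = χ y * gmtDiv (gradient u) y := by
      intro y
      by_cases hy : y ∈ U
      · exact kit_div_normal hU hc.smooth hc.eik hχ.smooth hy
      · have hy' : y ∉ tsupport χ := fun h => hy (hχU.sub h)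
        have hy'' : y ∉ tsupport (fun y => χ y • gradient u y) :=
          fun h => hy' (tsupport_smul_subset_left χ _ h)
        rw [gmtSim_div_eq_tr, fderiv_of_notMem_tsupport ℝ hy'', image_eq_zero_of_notMem_tsupport hy']
        simp [gmtSimTr]
    simp only [e1] at h0
    -- the integrand `g = σ χ Δu` is nonnegative, integrable, with zero integral
    set g : E k → ℝ := fun y => σ * (χ y * gmtDiv (gradient u) y) with hg
    have hg0 : ∫ y, g y ∂(gmtMu S) = 0 := by
      rw [hg, integral_const_mul, h0, mul_zero]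
    have hgz : ∀ y, y ∉ tsupport χ → g y = 0 := fun y hy => by
      rw [hg]
      simp only
      rw [image_eq_zero_of_notMem_tsupport hy]
      ring
    have hgnn : ∀ y, 0 ≤ g y := by
      intro y
      by_cases hy : y ∈ tsupport χ
      · have := (hball y (hχ.sub hy)).2
        have e : g y = χ y * (σ * gmtDiv (gradient u) y) := by rw [hg]; ring
        rw [e]
        exact mul_nonneg (hχ01 y).1 this.le
      · rw [hgz y hy]
    have hgI : Integrable g (gmtMu S) :=
      gmtSim_integrable hU (gmtSimV_lf_mono hlf)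
        (continuousOn_const.mul (hχ.smooth.continuous.continuousOn.mul hcont))
        (gmtSimV_cs hχ.cpt hgz).1 ((gmtSimV_cs hχ.cpt hgz).2.trans hχU.sub)
    have hae := (integral_eq_zero_iff_of_nonneg hgnn hgI).1 hg0
    -- but `g > 0` near `x`
    have hχx : ∀ᶠ y in 𝓝 x, χ y = 1 := by
      have := hχ1
      rw [nhdsSet_singleton] at this
      exact this
    obtain ⟨s, hs, hsb⟩ := Metric.eventually_nhds_iff_ball.1 (hχx.and hnh)
    have hpos' : 0 < gmtMu S (ball x s) := (gmtBd_iff_gmtMu hS x).1 hbd s hs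
    have hnull : gmtMu S (ball x s) = 0 := by
      refine measure_mono_null (fun y hy => ?_) (ae_iff.1 hae)
      obtain ⟨h1, -, h3⟩ := hsb y hy
      show ¬ g y = 0
      rw [hg]
      simp only
      rw [h1, one_mul]
      exact h3.ne'
    exact absurd hnull hpos'.ne'
  have k1 := key 1 (Or.inl rfl)
  have k2 := key (-1) (Or.inr rfl)
  rw [one_mul] at k1
  have : ¬ 0 < -gmtDiv (gradient u) x := by simpa using k2
  linarith [not_lt.1 k1, not_lt.1 this]

/-! ### the conic hull -/

/-- the conic hull of a set. -/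
def kitHull (U : Set (E k)) : Set (E k) := {x | ∃ t : ℝ, 0 < t ∧ t • x ∈ U}

theorem kit_hull_smul {U : Set (E k)} {x : E k} (hx : x ∈ kitHull U) {s : ℝ} (hs : 0 < s) :
    s • x ∈ kitHull U := by
  obtain ⟨t, ht, h⟩ := hx
  exact ⟨t / s, by positivity, by rwa [smul_smul, div_mul_cancel₀ _ hs.ne']⟩

theorem kit_subset_hull (U : Set (E k)) : U ⊆ kitHull U :=
  fun x hx => ⟨1, one_pos, by rwa [one_smul]⟩

theorem kit_hull_isOpen {U : Set (E k)} (hU : IsOpen U) : IsOpen (kitHull U) := by
  rw [isOpen_iff_mem_nhds]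
  rintro x ⟨t, ht, h⟩
  have hc : Continuous fun y : E k => t • y := continuous_const_smul t
  filter_upwards [hc.continuousAt.preimage_mem_nhds (hU.mem_nhds h)] with y hy
  exact ⟨t, ht, hy⟩

/-- the gradient of a `1`-homogeneous function is `0`-homogeneous (unconditional). -/
theorem kit_grad_smul {u : E k → ℝ} {t : ℝ} (ht : 0 < t) (hu : ∀ x, u (t • x) = t * u x) (x : E k) :
    gradient u (t • x) = gradient u x := by
  have h1 : (fun y => u (t • y)) = t • u := by
    funext y
    rw [hu y]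
    rfl
  have e1 : fderiv ℝ (fun y => u (t • y)) x = t • fderiv ℝ u (t • x) := fderiv_comp_smul t
  have e2 : fderiv ℝ (t • u) x = t • fderiv ℝ u x := by
    rw [fderiv_const_smul_field]
    rfl
  rw [h1, e2] at e1
  unfold gradient
  rw [(smul_right_injective _ ht.ne' e1).symm]

theorem kit_pi_smul {u : E k → ℝ} {t : ℝ} (ht : 0 < t) (hu : ∀ x, u (t • x) = t * u x) (x : E k) :
    gmtSimPi u (t • x) = t • gmtSimPi u x := by
  unfold gmtSimPi
  rw [kit_grad_smul ht hu, hu, smul_sub, smul_smul]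

theorem kit_dil_congr {A B : Set (E k)} (h : A =ᵐ[volume] B) {t : ℝ} (ht : 0 < t) :
    (gmtDil 0 t A : Set (E k)) =ᵐ[volume] gmtDil 0 t B := by
  rw [ae_eq_set] at h ⊢
  have e1 : gmtDil 0 t A \ gmtDil 0 t B = gmtDil 0 t (A \ B) := rfl
  have e2 : gmtDil 0 t B \ gmtDil 0 t A = gmtDil 0 t (B \ A) := rfl
  rw [e1, e2, volume_gmtDil _ 0 ht, volume_gmtDil _ 0 ht, h.1, h.2]
  simp

/-- **the tube can be taken conic.** -/
theorem kit_conic {S U : Set (E k)} (hS : MeasurableSet S) (hcone : GmtCone S)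
    (hne : (gmtBd S).Nonempty) (hc : GmtSimTube S U (gmtSimSd S)) :
    GmtSimTube S (kitHull U) (gmtSimSd S) := by
  have hu : ∀ t : ℝ, 0 < t → ∀ x, gmtSimSd S (t • x) = t * gmtSimSd S x :=
    fun t ht x => gmtSim_sd_smul hcone ht x
  have hopn : IsOpen (kitHull U) := kit_hull_isOpen hc.opn
  have hsm : ContDiffOn ℝ ∞ (gmtSimSd S) (kitHull U) := by
    rintro x ⟨t, ht, h⟩
    have h1 : ContDiffAt ℝ ∞ (gmtSimSd S) (t • x) := hc.smooth.contDiffAt (hc.opn.mem_nhds h)
    have h2 : ContDiffAt ℝ ∞ (fun y : E k => t • y) x := (contDiff_const_smul t).contDiffAt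
    have h3 : ContDiffAt ℝ ∞ (fun y => t⁻¹ * gmtSimSd S (t • y)) x :=
      contDiffAt_const.mul (h1.comp x h2)
    refine (h3.congr_of_eventuallyEq (Eventually.of_forall fun y => ?_)).contDiffWithinAt
    show gmtSimSd S y = t⁻¹ * gmtSimSd S (t • y)
    rw [hu t ht, ← mul_assoc, inv_mul_cancel₀ ht.ne', one_mul]
  have heik : ∀ x ∈ kitHull U, ‖gradient (gmtSimSd S) x‖ = 1 := by
    rintro x ⟨t, ht, h⟩
    rw [← kit_grad_smul ht (hu t ht) x]
    exact hc.eik _ h
  have hneg : (S ∩ kitHull U : Set (E k)) =ᵐ[volume]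
      ({x | x ∈ kitHull U ∧ gmtSimSd S x < 0} : Set (E k)) := by
    set B : {t : ℝ // 0 < t} → Set (E k) := fun t => gmtDil 0 t.1 U with hB
    have hBo : ∀ t, IsOpen (B t) := fun t => by
      have hcn : Continuous fun y : E k => (0 : E k) + t.1 • y :=
        continuous_const.add (continuous_const_smul t.1)
      exact hc.opn.preimage hcn
    have hBU : (⋃ t, B t) = kitHull U := by
      ext x
      simp only [mem_iUnion, hB, Subtype.exists]
      constructor
      · rintro ⟨t, ht, h⟩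
        refine ⟨t, ht, ?_⟩
        have : (0 : E k) + t • x ∈ U := h
        rwa [zero_add] at this
      · rintro ⟨t, ht, h⟩
        refine ⟨t, ht, ?_⟩
        show (0 : E k) + t • x ∈ U
        rwa [zero_add]
    have haeB : ∀ t, (S ∩ B t : Set (E k)) =ᵐ[volume]
        ({y | y ∈ B t ∧ gmtSimSd S y < 0} : Set (E k)) := by
      intro t
      have h1 := kit_dil_congr hc.neg t.2
      have e1 : gmtDil 0 t.1 (S ∩ U) = gmtDil 0 t.1 S ∩ B t := rfl
      have e2 : gmtDil 0 t.1 ({x | x ∈ U ∧ gmtSimSd S x < 0} : Set (E k))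
          = {y | y ∈ B t ∧ gmtSimSd S y < 0} := by
        ext y
        show ((0 : E k) + t.1 • y ∈ U ∧ gmtSimSd S (0 + t.1 • y) < 0) ↔
          ((0 : E k) + t.1 • y ∈ U ∧ gmtSimSd S y < 0)
        rw [zero_add, hu t.1 t.2]
        refine and_congr_right fun _ => ?_
        constructor
        · intro h
          by_contra hcon
          push Not at hcon
          have := mul_nonneg t.2.le hcon
          linarith
        · intro h
          exact mul_neg_of_pos_of_neg t.2 h
      rw [e1, e2] at h1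
      exact (((hcone t.1 t.2).inter (ae_eq_refl _)).symm).trans h1
    obtain ⟨T, hT, hTU⟩ := TopologicalSpace.isOpen_iUnion_countable B hBo
    rw [← hBU, ← hTU]
    have e1 : S ∩ ⋃ i ∈ T, B i = ⋃ i ∈ T, S ∩ B i := by
      rw [inter_iUnion₂]
    have e2 : ({x | x ∈ ⋃ i ∈ T, B i ∧ gmtSimSd S x < 0} : Set (E k))
        = ⋃ i ∈ T, {y | y ∈ B i ∧ gmtSimSd S y < 0} := by
      ext y
      simp only [mem_iUnion, mem_ofPred_eq, exists_prop]
      constructor
      · rintro ⟨⟨i, hiT, hi⟩, hy⟩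
        exact ⟨i, hiT, hi, hy⟩
      · rintro ⟨i, hiT, hi, hy⟩
        exact ⟨⟨i, hiT, hi⟩, hy⟩
    rw [e1, e2]
    exact Filter.EventuallyEq.countable_bUnion hT (fun i _ => haeB i)
  refine
    { opn := hopn
      zero := ?_
      bd := fun x hx hx0 => kit_subset_hull U (hc.bd x hx hx0)
      smooth := hsm
      eik := heik
      zero_iff := fun x _ => gmtSim_sd_eq_zero hne x
      neg := hneg
      proj := ?_
      grad_proj := ?_
      nu := ?_ }
  · rintro ⟨t, ht, h⟩
    rw [smul_zero] at h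
    exact hc.zero h
  · rintro x ⟨t, ht, h⟩
    obtain ⟨h1, h2⟩ := hc.proj _ h
    rw [kit_pi_smul ht (hu t ht)] at h1 h2
    refine ⟨⟨t, ht, h1⟩, ?_⟩
    rw [hu t ht] at h2
    exact (mul_eq_zero.1 h2).resolve_left ht.ne'
  · rintro x ⟨t, ht, h⟩
    have h1 := hc.grad_proj _ h
    rw [kit_pi_smul ht (hu t ht), kit_grad_smul ht (hu t ht), kit_grad_smul ht (hu t ht)] at h1
    exact h1
  · have hex : ∀ i : {p : E k // p ∈ kitHull U}, ∃ r > 0, ball i.1 r ⊆ kitHull U :=
      fun i => Metric.isOpen_iff.1 hopn i.1 i.2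
    choose r hr hsub using hex
    set B : {p : E k // p ∈ kitHull U} → Set (E k) := fun i => ball i.1 (r i) with hB
    have hBU : (⋃ i, B i) = kitHull U := by
      apply subset_antisymm
      · exact iUnion_subset hsub
      · intro x hx
        exact mem_iUnion.2 ⟨⟨x, hx⟩, mem_ball_self (hr ⟨x, hx⟩)⟩
    obtain ⟨T, hT, hTU⟩ := TopologicalSpace.isOpen_iUnion_countable B (fun i => isOpen_ball)
    rw [← hBU, ← hTU, ae_restrict_biUnion_iff _ hT]
    intro i _
    have haeB : (S ∩ B i : Set (E k)) =ᵐ[volume]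
        ({y | y ∈ B i ∧ gmtSimSd S y < 0} : Set (E k)) := by
      have e1 : S ∩ B i = (S ∩ kitHull U) ∩ B i := by
        rw [inter_assoc, inter_eq_right.2 (hsub i)]
      have e2 : ({y | y ∈ B i ∧ gmtSimSd S y < 0} : Set (E k))
          = {y | y ∈ kitHull U ∧ gmtSimSd S y < 0} ∩ B i := by
        ext y
        exact ⟨fun h => ⟨⟨hsub i h.1, h.2⟩, h.1⟩, fun h => ⟨h.2, h.1.2⟩⟩
      rw [e1, e2]
      exact hneg.inter (ae_eq_refl _)
    have h1 := gmtSim_dep_nu i.1 _ (hr i) (gmtSimSd S) (hsm.mono (hsub i))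
      (fun y hy h0 => by
        have := heik y (hsub i hy)
        rw [← gmtSim_norm_fderiv_eq, h0, norm_zero] at this
        exact zero_ne_one this) hS haeB
    filter_upwards [h1, ae_restrict_mem (measurableSet_ball : MeasurableSet (B i))] with y hy hyB
    rw [hy, heik y (hsub i hyB), inv_one, one_smul]

/-- **K1: the conic tube of a minimal cone.** -/
theorem kit_tube {S : Set (E k)} (hS : MinCone k S) :
    ∃ U : Set (E k), GmtSimCone S U (gmtSimSd S) ∧ ∀ x ∈ U, ∀ t : ℝ, 0 < t → t • x ∈ U := by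
  obtain ⟨U₀, hU₀⟩ := gmtSim_tube_exists hS.meas hS.reg
  have hU : GmtSimTube S (kitHull U₀) (gmtSimSd S) := kit_conic hS.meas hS.cone ⟨0, hS.vert⟩ hU₀
  refine ⟨kitHull U₀, { toGmtSimTube := hU, hom := ?_, homA := ?_, harm := ?_ },
    fun x hx t ht => kit_hull_smul hx ht⟩
  · intro x hx
    have hd : DifferentiableAt ℝ (gmtSimSd S) x :=
      (hU.smooth.contDiffAt (hU.opn.mem_nhds hx)).differentiableAt (by simp)
    have h1 : HasDerivAt (fun t : ℝ => gmtSimSd S (t • x)) (fderiv ℝ (gmtSimSd S) x x) 1 := by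
      have hx1 : HasDerivAt (fun t : ℝ => t • x) x 1 := by
        simpa using (hasDerivAt_id (1 : ℝ)).smul_const x
      have hd' : HasFDerivAt (gmtSimSd S) (fderiv ℝ (gmtSimSd S) x) ((1 : ℝ) • x) := by
        rw [one_smul]
        exact hd.hasFDerivAt
      exact hd'.comp_hasDerivAt 1 hx1
    have h2 : HasDerivAt (fun t : ℝ => t * gmtSimSd S x) (gmtSimSd S x) 1 := by
      simpa using (hasDerivAt_id (1 : ℝ)).mul_const (gmtSimSd S x)
    have h3 : (fun t : ℝ => t * gmtSimSd S x) =ᶠ[𝓝 1] fun t : ℝ => gmtSimSd S (t • x) := by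
      filter_upwards [lt_mem_nhds (zero_lt_one' ℝ)] with t ht using (gmtSim_sd_smul hS.cone ht x).symm
    rw [real_inner_comm, gmtSim_inner_gradient]
    exact (h1.congr_of_eventuallyEq h3).unique h2
  · intro x _ _ t ht
    exact gmtSim_A_smul ht (fun y => gmtSim_sd_smul hS.cone ht y) x
  · exact kit_harm hS.lf hS.stat hU

end Claimed.Agent.R323
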