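import Claimed.Agent.R323.Kit.LinkMu

/-!
# Row 323, block K (KIT), K3 part 3: INTEGRATION BY PARTS ON THE LINK, THE JACOBI FORM.   Architect: helper99.   Prefix `kit_`.
LEAVES: one `sorry` each, recipes in the docstrings.
-/

set_option autoImplicit false
open scoped ContDiff ENNReal NNReal RealInnerProductSpace Topology
open MeasureTheory Metric Set Filter

namespace Claimed.Agent.R323

open Claimed.Agent.Gmt

variable {k : ℕ}

/-! ### K3.2 integration by parts, the Jacobi form -/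

/-! ### homogeneity -/

/-- the gradient of a function which is `0`-homogeneous on an open set is `(-1)`-homogeneous there. -/
theorem kit_hom_grad {U : Set (E k)} (hUo : IsOpen U) {f : E k → ℝ} (hom : ∀ x ∈ U, ∀ t : ℝ, 0 < t → f (t • x) = f x)
    {t : ℝ} (ht : 0 < t) {x : E k} (hx : x ∈ U) : gradient f (t • x) = t⁻¹ • gradient f x := by
  have h1 : (fun y => f (t • y)) =ᶠ[𝓝 x] f := by
    filter_upwards [hUo.mem_nhds hx] with y hy using hom y hy t ht
  have e1 : fderiv ℝ (fun y => f (t • y)) x = t • fderiv ℝ f (t • x) := fderiv_comp_smul t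
  rw [h1.fderiv_eq] at e1
  refine ext_inner_right ℝ fun v => ?_
  rw [gmtSim_inner_gradient, inner_smul_left, gmtSim_inner_gradient, e1]
  simp only [_root_.smul_apply, smul_eq_mul, conj_trivial]
  rw [← mul_assoc, inv_mul_cancel₀ ht.ne', one_mul]

theorem kit_hom_H {U : Set (E k)} (hUo : IsOpen U) {f : E k → ℝ} (hom : ∀ x ∈ U, ∀ t : ℝ, 0 < t → f (t • x) = f x)
    {t : ℝ} (ht : 0 < t) {x : E k} (hx : x ∈ U) : gmtSimH f (t • x) = (t ^ 2)⁻¹ • gmtSimH f x := by
  have h1 : (fun y => gradient f (t • y)) =ᶠ[𝓝 x] fun y => t⁻¹ • gradient f y := by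
    filter_upwards [hUo.mem_nhds hx] with y hy using kit_hom_grad hUo hom ht hy
  have e1 : fderiv ℝ (fun y => gradient f (t • y)) x = t • fderiv ℝ (gradient f) (t • x) := fderiv_comp_smul t
  have e2 : fderiv ℝ (fun y => t⁻¹ • gradient f y) x = t⁻¹ • fderiv ℝ (gradient f) x := by
    have e : (fun y => t⁻¹ • gradient f y) = t⁻¹ • gradient f := rfl
    rw [e, fderiv_const_smul_field]
    rfl
  rw [h1.fderiv_eq, e2] at e1
  unfold gmtSimH
  have e3 : fderiv ℝ (gradient f) (t • x) = t⁻¹ • (t • fderiv ℝ (gradient f) (t • x)) := by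
    rw [smul_smul, inv_mul_cancel₀ ht.ne', one_smul]
  rw [e3, ← e1, smul_smul]
  congr 1
  field_simp

theorem kit_hom_L {U : Set (E k)} (hUo : IsOpen U) {u f : E k → ℝ} (hom : ∀ x ∈ U, ∀ t : ℝ, 0 < t → f (t • x) = f x)
    {t : ℝ} (ht : 0 < t) (hu : ∀ x, u (t • x) = t * u x) {x : E k} (hx : x ∈ U) :
    gmtSimL u f (t • x) = (t ^ 2)⁻¹ * gmtSimL u f x := by
  unfold gmtSimL
  rw [gmtSim_div_eq_tr, gmtSim_div_eq_tr, kit_grad_smul ht hu]
  have e : fderiv ℝ (gradient f) (t • x) = (t ^ 2)⁻¹ • fderiv ℝ (gradient f) x := kit_hom_H hUo hom ht hx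
  rw [kit_hom_H hUo hom ht hx, e]
  unfold gmtSimTr
  simp only [_root_.smul_apply, inner_smul_left, conj_trivial, ← Finset.mul_sum]
  ring

theorem kit_hom_Tg {U : Set (E k)} (hUo : IsOpen U) {u f g : E k → ℝ} (homf : ∀ x ∈ U, ∀ t : ℝ, 0 < t → f (t • x) = f x)
    (homg : ∀ x ∈ U, ∀ t : ℝ, 0 < t → g (t • x) = g x)
    {t : ℝ} (ht : 0 < t) (hu : ∀ x, u (t • x) = t * u x) {x : E k} (hx : x ∈ U) :
    gmtSimTg u f g (t • x) = (t ^ 2)⁻¹ * gmtSimTg u f g x := by
  unfold gmtSimTg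
  rw [kit_grad_smul ht hu, kit_hom_grad hUo homf ht hx, kit_hom_grad hUo homg ht hx]
  simp only [inner_smul_left, inner_smul_right, conj_trivial]
  field_simp

/-- Euler's relation. -/
theorem kit_hom_euler {U : Set (E k)} {f : E k → ℝ} (hom : ∀ x ∈ U, ∀ t : ℝ, 0 < t → f (t • x) = f x)
    {x : E k} (hx : x ∈ U) (hd : DifferentiableAt ℝ f x) : ⟪x, gradient f x⟫ = 0 := by
  have h1 : HasDerivAt (fun t : ℝ => f (t • x)) (fderiv ℝ f x x) 1 := by
    have hf : HasFDerivAt f (fderiv ℝ f x) ((1 : ℝ) • x) := by rw [one_smul]; exact hd.hasFDerivAt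
    have hl : HasDerivAt (fun t : ℝ => t • x) x 1 := by simpa using (hasDerivAt_id (1 : ℝ)).smul_const x
    exact hf.comp_hasDerivAt 1 hl
  have h2 : (fun _ : ℝ => f x) =ᶠ[𝓝 1] fun t : ℝ => f (t • x) := by
    filter_upwards [lt_mem_nhds (one_pos : (0 : ℝ) < 1)] with t ht using (hom x hx t ht).symm
  have h3 := h1.congr_of_eventuallyEq h2
  have h4 := (hasDerivAt_const (1 : ℝ) (f x)).unique h3
  rw [real_inner_comm, gmtSim_inner_gradient]
  exact h4.symm

/-- the gradient of a radial function. -/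
theorem kit_grad_radial {R : ℝ → ℝ} (hR : Differentiable ℝ R) (x : E k) :
    gradient (fun y : E k => R (‖y‖ ^ 2)) x = (2 * deriv R (‖x‖ ^ 2)) • x := by
  have h1 : HasFDerivAt (fun y : E k => ‖y‖ ^ 2) (2 • innerSL ℝ x) x := (hasStrictFDerivAt_norm_sq x).hasFDerivAt
  have h2 : HasDerivAt R (deriv R (‖x‖ ^ 2)) (‖x‖ ^ 2) := (hR _).hasDerivAt
  have h3 := h2.comp_hasFDerivAt x h1
  refine ext_inner_right ℝ fun v => ?_
  have e : (fun y : E k => R (‖y‖ ^ 2)) = R ∘ fun y : E k => ‖y‖ ^ 2 := rfl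
  rw [gmtSim_inner_gradient, e, h3.fderiv, inner_smul_left]
  simp only [_root_.smul_apply, innerSL_apply_apply, smul_eq_mul, conj_trivial, nsmul_eq_mul]
  push_cast
  ring

/-! ### integration by parts against a test function -/

theorem kit_ibp_L {S U : Set (E k)} {u : E k → ℝ} (hstat : ∀ X, GmtTestS univ X → gmtDelta S X = 0)
    (hc : GmtSimTube S U u) {f χ : E k → ℝ} (hf : GmtTestS0 U f) (hχ : ContDiffOn ℝ ∞ χ U) :
    ∫ x, (f x * gmtSimL u χ x + gmtSimTg u f χ x) ∂(gmtMu S) = 0 := by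
  have hY : GmtTestS U (fun y => f y • gradient χ y) :=
    gmtSim_test_smul hc.opn (gmtSim_contDiffOn_gradient hc.opn hχ) hf
  rw [← kit_ibp hstat hc hY]
  refine integral_congr_ae (Eventually.of_forall fun x => ?_)
  show f x * gmtSimL u χ x + gmtSimTg u f χ x = gmtDiv (fun y => f y • gradient χ y) x
    - ⟪fderiv ℝ (fun y => f y • gradient χ y) x (gradient u x), gradient u x⟫
  by_cases hxU : x ∈ U
  · rw [gmtSim_div_eq_tr, gmtSimV_fderiv hc.opn hχ hf.smooth hxU, gmtSimI_tr_add_smul, gmtSimI_tr_r1]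
    unfold gmtSimL gmtSimTg
    rw [gmtSim_div_eq_tr]
    simp only [_root_.add_apply, _root_.smul_apply, gmtSimJ_r1_apply, inner_add_left, inner_smul_left, conj_trivial]
    unfold gmtSimH
    ring
  · have hxK : x ∉ tsupport f := fun h => hxU (hf.sub h)
    have hxY : x ∉ tsupport (fun y => f y • gradient χ y) := fun h => hxU (hY.sub h)
    rw [image_eq_zero_of_notMem_tsupport hxK, gmtSim_div_eq_tr, fderiv_of_notMem_tsupport ℝ hxY]
    unfold gmtSimTg
    rw [gmtSimV_gradient_zero hxK]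
    simp [gmtSimTr]


/-! ### the radial cut-offs -/

theorem kit_exists_theta : ∃ Θ : ℕ → ℝ → ℝ, (∀ n, ContDiff ℝ ∞ (Θ n)) ∧ (∀ n s, 0 ≤ Θ n s ∧ Θ n s ≤ 1) ∧ (∀ n s, 1 ≤ s → Θ n s = 0) ∧
    (∀ n, ∃ ε > 0, ∀ s < ε, Θ n s = 0) ∧ ∀ s, 0 < s → s < 1 → ∀ᶠ n in atTop, Θ n s = 1 := by
  refine ⟨fun n s => Real.smoothTransition (n * s - 1) * Real.smoothTransition (n * (1 - s)), fun n => ?_, fun n s => ⟨?_, ?_⟩,
    fun n s hs => ?_, fun n => ⟨1 / ((n : ℝ) + 1), by positivity, fun s hs => ?_⟩, fun s h0 h1 => ?_⟩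
  · exact (Real.smoothTransition.contDiff.comp (by fun_prop)).mul (Real.smoothTransition.contDiff.comp (by fun_prop))
  · exact mul_nonneg (Real.smoothTransition.nonneg _) (Real.smoothTransition.nonneg _)
  · exact mul_le_one₀ (Real.smoothTransition.le_one _) (Real.smoothTransition.nonneg _) (Real.smoothTransition.le_one _)
  · have : (n : ℝ) * (1 - s) ≤ 0 := mul_nonpos_of_nonneg_of_nonpos (Nat.cast_nonneg n) (by linarith)
    simp only
    rw [Real.smoothTransition.zero_of_nonpos this, mul_zero]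
  · have hn : (0 : ℝ) ≤ n := Nat.cast_nonneg n
    have : (n : ℝ) * s - 1 ≤ 0 := by
      have h1 : (n : ℝ) * s ≤ n * (1 / ((n : ℝ) + 1)) := mul_le_mul_of_nonneg_left hs.le hn
      have h2 : (n : ℝ) * (1 / ((n : ℝ) + 1)) ≤ 1 := by
        rw [mul_one_div, div_le_one (by positivity)]
        linarith
      linarith
    simp only
    rw [Real.smoothTransition.zero_of_nonpos this, zero_mul]
  · have hs1 : 0 < 1 - s := by linarith
    filter_upwards [tendsto_natCast_atTop_atTop.eventually_ge_atTop (2 / s),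
      tendsto_natCast_atTop_atTop.eventually_ge_atTop (1 / (1 - s))] with n hn1 hn2
    have a1 : 1 ≤ (n : ℝ) * s - 1 := by
      rw [div_le_iff₀ h0] at hn1
      linarith
    have a2 : 1 ≤ (n : ℝ) * (1 - s) := by
      rwa [div_le_iff₀ hs1] at hn2
    rw [Real.smoothTransition.one_of_one_le a1, Real.smoothTransition.one_of_one_le a2, one_mul]

theorem kit_mu_closedBall_lt_top {S : Set (E k)} (hlf : GmtLF S univ) (r : ℝ) : gmtMu S (closedBall 0 r) < ⊤ := by
  refine lt_of_le_of_lt (measure_mono (closedBall_subset_ball (lt_add_one r))) (lt_top_iff_ne_top.2 ?_)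
  rw [gmtMu_open S isOpen_ball]
  exact hlf.2 _ ⟨isOpen_ball, (isCompact_closedBall (0 : E k) (r + 1)).of_isClosed_subset isClosed_closure
    (closure_ball_subset_closedBall), subset_univ _⟩

/-- LEAF K3-IBP.  `kit_ibp` with `Y = ψ(‖x‖) ζ(x) φ(x) ∇χ(x)` (`ζ` of `kit_cutoff`, `ψ ∈ C_c^∞(0,∞)`): on the cone
`div Y - ⟪DY N, N⟫ = ψ(‖x‖) (Tg(φ,χ) + φ Lχ) + ψ'(‖x‖) φ ⟪x/‖x‖, ∇χ⟫` and `⟪x, ∇χ⟫ = 0` (Euler).   `G = ‖x‖² (Tg(φ,χ) + φ Lχ)` is `0`-homogeneous and bounded on the cone;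
`∫ ψ(‖x‖) ‖x‖⁻² G dμ = 0` for all `ψ`; let `ψ(r) r⁻² → 1_{(0,1)}(r)` boundedly (dominated convergence, `μ (ball 0 2) < ∞`): `∫_{B_1} G dμ = 0`; `kit_sg_integral`. -/
theorem kit_sg_ibp {S U : Set (E k)} (hk : 2 ≤ k) (hS : MinCone k S) (hU : KitTube S U) {φ χ : E k → ℝ}
    (hφ : KitFun U φ) (hχ : KitFun U χ) :
    ∫ x, (φ x * gmtSimL (gmtSimSd S) χ x + gmtSimTg (gmtSimSd S) φ χ x) ∂(kitSg S) = 0 := by
  obtain ⟨u, hu⟩ : ∃ u : E k → ℝ, u = gmtSimSd S := ⟨_, rfl⟩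
  rw [← hu]
  have hT : GmtSimTube S U u := by rw [hu]; exact hU.cone.toGmtSimTube
  have hUo : IsOpen U := hT.opn
  have husm : ∀ t : ℝ, 0 < t → ∀ x, u (t • x) = t * u x := fun t ht x => by rw [hu]; exact gmtSim_sd_smul hS.cone ht x
  have huhom : ∀ x ∈ U, ⟪x, gradient u x⟫ = u x := by rw [hu]; exact hU.cone.hom
  obtain ⟨ζ, hζ0, hζ01, hζout, hζ1⟩ := kit_cutoff hS hU
  obtain ⟨Θ, hΘs, hΘ01, hΘ1, hΘ0, hΘlim⟩ := kit_exists_theta
  have hLc : ContinuousOn (gmtSimL u χ) U := (gmtSimI_contDiffOn_L hUo hT.smooth hχ.smooth).continuousOn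
  obtain ⟨f0, hf0⟩ : ∃ f0 : E k → ℝ, f0 = fun x => φ x * gmtSimL u χ x + gmtSimTg u φ χ x := ⟨_, rfl⟩
  obtain ⟨G, hG⟩ : ∃ G : E k → ℝ, G = fun x => ‖x‖ ^ 2 * f0 x := ⟨_, rfl⟩
  have hf0c : ContinuousOn f0 U := by
    rw [hf0]
    exact (hφ.smooth.continuousOn.mul hLc).add (gmtSimV_continuousOn_Tg hUo hT.smooth hφ.smooth hχ.smooth).continuousOn
  have hGc : ContinuousOn G U := by
    rw [hG]
    exact ((continuous_norm.pow 2).continuousOn).mul hf0c
  have hGhom : ∀ x ∈ U, ∀ t : ℝ, 0 < t → G (t • x) = G x := by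
    intro x hx t ht
    rw [hG, hf0]
    simp only
    rw [kit_hom_L hUo hχ.hom ht (husm t ht) hx, kit_hom_Tg hUo hφ.hom hχ.hom ht (husm t ht) hx, hφ.hom x hx t ht, norm_smul,
      Real.norm_of_nonneg ht.le]
    field_simp
  have e1 : ∫ x, f0 x ∂(kitSg S) = ∫ x, G x ∂(kitSg S) := kit_sg_congr hk hS fun x hx => by
    have h1 : ‖x‖ = 1 := by simpa using hx.2
    rw [hG]
    simp only
    rw [h1]
    ring
  have e0 : (fun x => φ x * gmtSimL u χ x + gmtSimTg u φ χ x) = f0 := hf0.symm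
  rw [e0, e1, kit_sg_integral hk hS hU hGc hGhom]
  suffices h : ∫ x in ball (0 : E k) 1, G x ∂(gmtMu S) = 0 by rw [h, mul_zero]
  -- the cut-offs
  have hRs : ∀ n, ContDiff ℝ ∞ fun s : ℝ => Θ n s * s := fun n => (hΘs n).mul contDiff_id
  obtain ⟨c, hc⟩ : ∃ c : ℕ → E k → ℝ, c = fun n x => (Θ n (‖x‖ ^ 2) * ‖x‖ ^ 2) * ζ x := ⟨_, rfl⟩
  have h0U : ∀ x ∈ U, x ≠ 0 := fun x hx h => hT.zero (h ▸ hx)
  have hcout : ∀ n x, x ∉ U → c n =ᶠ[𝓝 x] fun _ => 0 := by
    intro n x hx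
    by_cases hx0 : x = 0
    · obtain ⟨ε, hε, hz⟩ := hΘ0 n
      have hcont : ContinuousAt (fun y : E k => ‖y‖ ^ 2) x := (continuous_norm.pow 2).continuousAt
      have hlt : ‖x‖ ^ 2 < ε := by rw [hx0]; simpa using hε
      filter_upwards [hcont.eventually (gt_mem_nhds hlt)] with y hy
      rw [hc]
      simp only
      rw [hz _ hy]
      ring
    · filter_upwards [hζout x hx0 hx] with y hy
      rw [hc]
      simp only
      rw [hy, mul_zero]
  have hcT : ∀ n, GmtTestS0 U (c n) := by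
    intro n
    have hsub : tsupport (c n) ⊆ U := by
      intro x hx
      by_contra hxU
      exact (notMem_tsupport_iff_eventuallyEq.2 (hcout n x hxU)) hx
    have hsm : ContDiffOn ℝ ∞ (c n) U := by
      rw [hc]
      have h1 : ContDiff ℝ ∞ fun x : E k => Θ n (‖x‖ ^ 2) * ‖x‖ ^ 2 := (hRs n).comp (contDiff_norm_sq ℝ)
      exact h1.contDiffOn.mul (hζ0.smooth.mono fun x hx => h0U x hx)
    refine ⟨gmtSim_contDiff_of_tsupport hUo hsm hsub, HasCompactSupport.intro (isCompact_closedBall (0 : E k) 1) fun x hx => ?_, hsub⟩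
    have h1 : 1 < ‖x‖ := by simpa using hx
    have h2 : (1 : ℝ) ≤ ‖x‖ ^ 2 := by nlinarith
    rw [hc]
    simp only
    rw [hΘ1 n _ h2]
    ring
  have hfT : ∀ n, GmtTestS0 U (fun x => φ x * c n x) := fun n => gmtSim_test_mul hUo hφ.smooth (hcT n)
  obtain ⟨F, hF⟩ : ∃ F : ℕ → E k → ℝ, F = fun n x => (φ x * c n x) * gmtSimL u χ x + gmtSimTg u (fun y => φ y * c n y) χ x := ⟨_, rfl⟩
  have hF0 : ∀ n, ∫ x, F n x ∂(gmtMu S) = 0 := fun n => by
    rw [hF]
    exact kit_ibp_L hS.stat hT (hfT n) hχ.smooth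
  have hFI : ∀ n, Integrable (F n) (gmtMu S) := by
    intro n
    have hz : ∀ x, x ∉ tsupport (fun x => φ x * c n x) → F n x = 0 := by
      intro x hx
      rw [hF]
      simp only
      unfold gmtSimTg
      rw [image_eq_zero_of_notMem_tsupport hx, gmtSimV_gradient_zero hx]
      simp
    have hcs := gmtSimV_cs (hfT n).cpt hz
    refine gmtSim_integrable hUo (gmtSimV_lf_mono hS.lf) ?_ hcs.1 (hcs.2.trans (hfT n).sub)
    rw [hF]
    exact ((hfT n).smooth.continuous.continuousOn.mul hLc).add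
      (gmtSimV_continuousOn_Tg hUo hT.smooth (hfT n).smooth.contDiffOn hχ.smooth).continuousOn
  -- the pointwise identity on the cone
  have hpt : ∀ n, ∀ x ∈ gmtBd S, x ≠ 0 → F n x = Θ n (‖x‖ ^ 2) * G x := by
    intro n x hx hx0
    have hxU : x ∈ U := hT.bd x hx hx0
    have heq : (fun y => φ y * c n y) =ᶠ[𝓝 x] fun y => φ y * (Θ n (‖y‖ ^ 2) * ‖y‖ ^ 2) := by
      filter_upwards [hζ1 x hx hx0] with y hy
      rw [hc]
      simp only
      rw [hy, mul_one]
    have dφ : DifferentiableAt ℝ φ x := (hφ.smooth.contDiffAt (hUo.mem_nhds hxU)).differentiableAt (by simp)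
    have dχ : DifferentiableAt ℝ χ x := (hχ.smooth.contDiffAt (hUo.mem_nhds hxU)).differentiableAt (by simp)
    have dR : DifferentiableAt ℝ (fun y : E k => Θ n (‖y‖ ^ 2) * ‖y‖ ^ 2) x :=
      (((hRs n).comp (contDiff_norm_sq ℝ)).differentiable (by simp)) x
    have g1 : gradient (fun y => φ y * c n y) x
        = φ x • ((2 * deriv (fun s : ℝ => Θ n s * s) (‖x‖ ^ 2)) • x) + (Θ n (‖x‖ ^ 2) * ‖x‖ ^ 2) • gradient φ x := by
      have a1 : gradient (fun y => φ y * c n y) x = gradient (fun y => φ y * (Θ n (‖y‖ ^ 2) * ‖y‖ ^ 2)) x := by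
        unfold gradient
        rw [heq.fderiv_eq]
      rw [a1, gmtSimI_gradient_mul dφ dR, kit_grad_radial (R := fun s : ℝ => Θ n s * s) ((hRs n).differentiable (by simp)) x]
    have g2 : ⟪x, gradient χ x⟫ = 0 := kit_hom_euler hχ.hom hxU dχ
    have g3 : ⟪x, gradient u x⟫ = 0 := by rw [huhom x hxU]; exact (hT.zero_iff x hxU).2 hx
    rw [hF, hG, hf0]
    simp only
    unfold gmtSimTg
    rw [g1, heq.eq_of_nhds]
    simp only [inner_add_left, inner_smul_left, conj_trivial, g2, g3]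
    ring
  have hae : ∀ᵐ x ∂(gmtMu S), x ∈ gmtBd S ∧ x ≠ 0 := by
    have h1 : ∀ᵐ x ∂(gmtMu S), x ∈ gmtBd S := by
      have := gmtMu_compl_gmtBd hS.meas
      rw [ae_iff]
      exact this
    have h2 : ∀ᵐ x ∂(gmtMu S), x ≠ 0 := by
      rw [ae_iff]
      have : {a : E k | ¬ a ≠ 0} = {0} := by ext a; simp
      rw [this]
      exact kit_mu_zero hk hS.lf hS.cone
    exact h1.and h2
  -- the bound
  obtain ⟨M, hM⟩ := (kit_lk_compact S).exists_bound_of_continuousOn (hGc.mono (kit_lk_sub hU))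
  have hM0 : ∀ x ∈ gmtBd S, x ≠ 0 → |G x| ≤ M := by
    intro x hx hx0
    have hxU : x ∈ U := hT.bd x hx hx0
    have h1 := hM (kitRp x) (kit_rp_mem hS.cone hx hx0)
    have h2 : G (kitRp x) = G x := hGhom x hxU _ (inv_pos.2 (norm_pos_iff.2 hx0))
    rwa [h2, Real.norm_eq_abs] at h1
  have hlim := tendsto_integral_of_dominated_convergence (μ := gmtMu S) (F := F) (f := (ball (0 : E k) 1).indicator G)
    ((closedBall (0 : E k) 1).indicator fun _ => |M|) (fun n => (hFI n).aestronglyMeasurable)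
    ((integrable_indicator_iff measurableSet_closedBall).2 (integrableOn_const (kit_mu_closedBall_lt_top hS.lf 1).ne))
    (fun n => by
      filter_upwards [hae] with x hx
      rw [hpt n x hx.1 hx.2, Real.norm_eq_abs, abs_mul, abs_of_nonneg (hΘ01 n _).1]
      by_cases hb : x ∈ closedBall (0 : E k) 1
      · rw [indicator_of_mem hb]
        calc Θ n (‖x‖ ^ 2) * |G x| ≤ 1 * |G x| := mul_le_mul_of_nonneg_right (hΘ01 n _).2 (abs_nonneg _)
          _ = |G x| := one_mul _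
          _ ≤ M := hM0 x hx.1 hx.2
          _ ≤ |M| := le_abs_self M
      · have h1 : 1 < ‖x‖ := by simpa using hb
        have h2 : (1 : ℝ) ≤ ‖x‖ ^ 2 := by nlinarith
        rw [indicator_of_notMem hb, hΘ1 n _ h2, zero_mul])
    (by
      filter_upwards [hae] with x hx
      by_cases hb : x ∈ ball (0 : E k) 1
      · have h1 : ‖x‖ < 1 := by simpa using hb
        have h0 : 0 < ‖x‖ := norm_pos_iff.2 hx.2
        have h2 : ‖x‖ ^ 2 < 1 := by nlinarith
        rw [indicator_of_mem hb]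
        refine tendsto_const_nhds.congr' ?_
        filter_upwards [hΘlim (‖x‖ ^ 2) (by positivity) h2] with n hn
        rw [hpt n x hx.1 hx.2, hn, one_mul]
      · have h1 : 1 ≤ ‖x‖ := by simpa using hb
        have h2 : (1 : ℝ) ≤ ‖x‖ ^ 2 := by nlinarith
        rw [indicator_of_notMem hb]
        refine tendsto_const_nhds.congr' (Eventually.of_forall fun n => ?_)
        show 0 = F n x
        rw [hpt n x hx.1 hx.2, hΘ1 n _ h2, zero_mul])
  simp only [hF0] at hlim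
  rw [integral_indicator measurableSet_ball] at hlim
  exact tendsto_nhds_unique hlim tendsto_const_nhds

/-- the gradient of a `0`-homogeneous function on a conic open set is `(-1)`-homogeneous. -/
theorem kit_fun_grad_smul {U : Set (E k)} (hUo : IsOpen U) {f : E k → ℝ} (hf : KitFun U f) {x : E k} (hx : x ∈ U)
    {t : ℝ} (ht : 0 < t) : gradient f (t • x) = t⁻¹ • gradient f x := by
  have h1 : (fun y => f (t • y)) =ᶠ[𝓝 x] f := by
    filter_upwards [hUo.mem_nhds hx] with y hy using hf.hom y hy t ht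
  have e1 : fderiv ℝ (fun y => f (t • y)) x = t • fderiv ℝ f (t • x) := fderiv_comp_smul t
  rw [h1.fderiv_eq] at e1
  have e2 : fderiv ℝ f (t • x) = t⁻¹ • fderiv ℝ f x := by
    rw [e1, smul_smul, inv_mul_cancel₀ ht.ne', one_smul]
  unfold gradient
  rw [e2, map_smul]

/-- `gmtSimTg` of `0`-homogeneous functions is `(-2)`-homogeneous. -/
theorem kit_Tg_smul {U : Set (E k)} (hUo : IsOpen U) {u f g : E k → ℝ} (hf : KitFun U f) (hg : KitFun U g)
    {x : E k} (hx : x ∈ U) {t : ℝ} (ht : 0 < t) (hu : ∀ y, u (t • y) = t * u y) :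
    gmtSimTg u f g (t • x) = (t ^ 2)⁻¹ * gmtSimTg u f g x := by
  unfold gmtSimTg
  rw [kit_fun_grad_smul hUo hf hx ht, kit_fun_grad_smul hUo hg hx ht, kit_grad_smul ht hu]
  simp only [inner_smul_left, inner_smul_right, conj_trivial]
  field_simp

/-- `μ`-a.e. point lies on the cone, off the vertex. -/
theorem kit_ae_bd {S : Set (E k)} (hk : 2 ≤ k) (hS : MinCone k S) :
    ∀ᵐ x ∂(gmtMu S), x ∈ gmtBd S ∧ x ≠ 0 := by
  have h1 : ∀ᵐ x ∂(gmtMu S), x ∈ gmtBd S := mem_ae_iff.2 (gmtMu_compl_gmtBd hS.meas)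
  have h2 : ∀ᵐ x ∂(gmtMu S), x ≠ 0 := by
    rw [ae_iff]
    simpa using kit_mu_zero hk hS.lf hS.cone
  filter_upwards [h1, h2] with x a b using ⟨a, b⟩

/-- LEAF K3-JAC: `jacB` as an integral over the link (`kit_sg_integral`; homogeneity: `gmtSimTg` of `0`-homogeneous functions is `(-2)`-homogeneous, `gmtSim_A_smul`; then `kit_sg_congr`, `‖x‖ = 1`). -/
theorem kit_jacB {S U : Set (E k)} (hk : 2 ≤ k) (hS : MinCone k S) (hU : KitTube S U) {φ χ : E k → ℝ}
    (hφ : KitFun U φ) (hχ : KitFun U χ) :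
    jacB S φ χ = ∫ x, (-gmtSimTg (gmtSimSd S) φ χ x + (gmtSimA (gmtSimSd S) x + ((k : ℝ) - 2)) * (φ x * χ x)) ∂(kitSg S) := by
  have hUo := hU.cone.opn
  have hu : ∀ t : ℝ, 0 < t → ∀ y, gmtSimSd S (t • y) = t * gmtSimSd S y :=
    fun t ht y => gmtSim_sd_smul hS.cone ht y
  set F : E k → ℝ := fun x => -(‖x‖ ^ 2 * gmtSimTg (gmtSimSd S) φ χ x) +
    (‖x‖ ^ 2 * gmtSimA (gmtSimSd S) x + ((k : ℝ) - 2)) * (φ x * χ x) with hF
  have hn : ContinuousOn (fun x : E k => ‖x‖ ^ 2) U := (continuous_norm.pow 2).continuousOn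
  have hFc : ContinuousOn F U := by
    have h1 := (gmtSimV_continuousOn_Tg hUo hU.cone.smooth hφ.smooth hχ.smooth).continuousOn
    have h2 := (gmtSim_contDiffOn_A hUo hU.cone.smooth).continuousOn
    exact (hn.mul h1).neg.add (((hn.mul h2).add continuousOn_const).mul
      (hφ.smooth.continuousOn.mul hχ.smooth.continuousOn))
  have hFh : ∀ x ∈ U, ∀ t : ℝ, 0 < t → F (t • x) = F x := by
    intro x hx t ht
    simp only [hF]
    rw [kit_Tg_smul hUo hφ hχ hx ht (hu t ht), gmtSim_A_smul ht (hu t ht), hφ.hom x hx t ht, hχ.hom x hx t ht,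
      norm_smul, Real.norm_eq_abs, abs_of_pos ht]
    field_simp
  have h1 := kit_sg_integral hk hS hU hFc hFh
  have h2 : ∫ x, F x ∂(kitSg S) = ∫ x, (-gmtSimTg (gmtSimSd S) φ χ x +
      (gmtSimA (gmtSimSd S) x + ((k : ℝ) - 2)) * (φ x * χ x)) ∂(kitSg S) := by
    refine kit_sg_congr hk hS fun x hx => ?_
    have hx1 : ‖x‖ = 1 := by simpa using hx.2
    simp only [hF, hx1]
    ring
  rw [← h2, h1]
  rfl

/-- `jacB` only depends on the germs along the cone.   LEAF K3-GERM. -/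
theorem kit_jacB_congr {S : Set (E k)} (hk : 2 ≤ k) (hS : MinCone k S) {φ φ' χ χ' : E k → ℝ}
    (h1 : ∀ x ∈ gmtBd S, x ≠ 0 → φ' =ᶠ[𝓝 x] φ) (h2 : ∀ x ∈ gmtBd S, x ≠ 0 → χ' =ᶠ[𝓝 x] χ) :
    jacB S φ' χ' = jacB S φ χ := by
  unfold jacB
  congr 1
  refine integral_congr_ae (ae_restrict_of_ae ?_)
  filter_upwards [kit_ae_bd hk hS] with x hx
  have a1 := h1 x hx.1 hx.2
  have a2 := h2 x hx.1 hx.2
  have g1 : gradient φ' x = gradient φ x := by unfold gradient; rw [a1.fderiv_eq]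
  have g2 : gradient χ' x = gradient χ x := by unfold gradient; rw [a2.fderiv_eq]
  simp only [gmtSimTg, g1, g2, a1.eq_of_nhds, a2.eq_of_nhds]

end Claimed.Agent.R323
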