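import Claimed.Agent.R323.Kit.Link

/-!
# Row 323, block K (KIT), K3 part 2: THE MEASURE OF THE LINK.   Architect: helper99.   Prefix `kit_`.   Proofs: helper150.
`σ = kitSg S = (k-1) · (x ↦ x/|x|)_# (μ_S ⌞ B_1)`.
-/

set_option autoImplicit false
open scoped ContDiff ENNReal NNReal RealInnerProductSpace Topology
open MeasureTheory Metric Set Filter

namespace Claimed.Agent.R323

open Claimed.Agent.Gmt

variable {k : ℕ}

/-! ### K3.1 the measure -/

/-- LEAF K3-Z.  As `gmtSimB_mu_zero` (`gmtMu_gmtDil` with `B = {0}`, `ρ = 2`, `gmtSimC_mu_dil`): `μ{0} 2^k = 2 μ{0}`, `μ{0} < ∞`. -/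
theorem kit_mu_zero {S : Set (E k)} (hk : 2 ≤ k) (hlf : GmtLF S univ) (hc : GmtCone S) : gmtMu S {0} = 0 := by
  have h := gmtMu_gmtDil hlf.1 (0 : E k) (two_pos) {0}
  rw [gmtSimC_mu_dil hlf.1 hc two_pos] at h
  have e : gmtDil (0 : E k) 2 {0} = {0} := by
    ext z
    have h' : z ∈ gmtDil (0 : E k) 2 {0} ↔ (0 : E k) + (2 : ℝ) • z ∈ ({0} : Set (E k)) := Iff.rfl
    rw [h', zero_add, mem_singleton_iff, mem_singleton_iff, smul_eq_zero]
    simp
  rw [e] at h
  have hfin : gmtMu S {0} ≠ ⊤ :=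
    gmtMu_compact_ne_top isOpen_univ hlf isCompact_singleton (subset_univ _)
  have h2 := congrArg ENNReal.toReal h
  rw [ENNReal.toReal_mul, ENNReal.toReal_mul, ENNReal.toReal_ofReal (by positivity),
    ENNReal.toReal_ofReal (by norm_num)] at h2
  have h4 : (4 : ℝ) ≤ 2 ^ k := by
    calc (4 : ℝ) = 2 ^ 2 := by norm_num
      _ ≤ 2 ^ k := pow_le_pow_right₀ (by norm_num) hk
  have h0 : 0 ≤ (gmtMu S {0}).toReal := ENNReal.toReal_nonneg
  have h3 : (gmtMu S {0}).toReal = 0 := by nlinarith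
  rcases (ENNReal.toReal_eq_zero_iff _).1 h3 with h4 | h4
  · exact h4
  · exact absurd h4 hfin

theorem kit_mu_ball_ne_top {S : Set (E k)} (hlf : GmtLF S univ) (x : E k) (r : ℝ) : gmtMu S (ball x r) ≠ ⊤ :=
  ne_top_of_le_ne_top (gmtMu_compact_ne_top isOpen_univ hlf (isCompact_closedBall x r) (subset_univ _)) (measure_mono ball_subset_closedBall)

theorem kit_sg_apply (S : Set (E k)) {B : Set (E k)} (hB : MeasurableSet B) :
    kitSg S B = ENNReal.ofReal ((k : ℝ) - 1) * gmtMu S (kitRp ⁻¹' B ∩ ball 0 1) := by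
  unfold kitSg
  rw [Measure.smul_apply, Measure.map_apply kit_rp_measurable hB, Measure.restrict_apply (kit_rp_measurable hB), smul_eq_mul]

/-- LEAF K3-FIN. -/
theorem kit_sg_univ {S : Set (E k)} (hk : 2 ≤ k) (hlf : GmtLF S univ) :
    kitSg S univ = ENNReal.ofReal (linkArea S) := by
  have hk1 : (0 : ℝ) ≤ (k : ℝ) - 1 := by
    have : (2 : ℝ) ≤ k := by exact_mod_cast hk
    linarith
  rw [kit_sg_apply S MeasurableSet.univ, preimage_univ, univ_inter]
  unfold linkArea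
  rw [ENNReal.ofReal_mul hk1, ENNReal.ofReal_toReal (kit_mu_ball_ne_top hlf 0 1)]

theorem kit_sg_finite {S : Set (E k)} (hk : 2 ≤ k) (hlf : GmtLF S univ) : IsFiniteMeasure (kitSg S) :=
  ⟨by rw [kit_sg_univ hk hlf]; exact ENNReal.ofReal_lt_top⟩

/-- `μ`-almost every point is a nonzero point of the boundary. -/
theorem kit_mu_ae {S : Set (E k)} (hk : 2 ≤ k) (hlf : GmtLF S univ) (hc : GmtCone S) : ∀ᵐ x ∂(gmtMu S), x ∈ gmtBd S ∧ x ≠ 0 := by
  have h1 : ∀ᵐ x ∂(gmtMu S), x ∈ gmtBd S := by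
    rw [ae_iff]
    exact gmtMu_compl_gmtBd hlf.1
  have h2 : ∀ᵐ x ∂(gmtMu S), x ≠ 0 := by
    rw [ae_iff]
    simpa using kit_mu_zero hk hlf hc
  filter_upwards [h1, h2] with x a b using ⟨a, b⟩

/-- LEAF K3-CAR: `σ` is carried by the link (`gmtMu_compl_gmtBd`, `kit_mu_zero`, `kit_rp_mem`). -/
theorem kit_sg_compl {S : Set (E k)} (hk : 2 ≤ k) (hlf : GmtLF S univ) (hc : GmtCone S) : kitSg S (kitLk S)ᶜ = 0 := by
  rw [kit_sg_apply S (kit_lk_compact S).isClosed.measurableSet.compl]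
  have h : gmtMu S (kitRp ⁻¹' (kitLk S)ᶜ ∩ ball 0 1) = 0 := by
    refine measure_mono_null ?_ (ae_iff.1 (kit_mu_ae hk hlf hc))
    rintro x ⟨hx, -⟩ ⟨h1, h2⟩
    exact hx (kit_rp_mem hc h1 h2)
  rw [h, mul_zero]

theorem kit_sg_ae {S : Set (E k)} (hk : 2 ≤ k) (hlf : GmtLF S univ) (hc : GmtCone S) : ∀ᵐ x ∂(kitSg S), x ∈ kitLk S := by
  rw [ae_iff]
  exact kit_sg_compl hk hlf hc

/-- functions which are continuous near the link are `σ`-measurable -/
theorem kit_sg_aesm {S U : Set (E k)} (hk : 2 ≤ k) (hS : MinCone k S) (hU : KitTube S U) {f : E k → ℝ}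
    (hf : ContinuousOn f U) : AEStronglyMeasurable f (kitSg S) := by
  have h1 : AEStronglyMeasurable f ((kitSg S).restrict U) := hf.aestronglyMeasurable hU.cone.opn.measurableSet
  have h2 : (kitSg S).restrict U = kitSg S :=
    Measure.restrict_eq_self_of_ae_mem ((kit_sg_ae hk hS.lf hS.cone).mono fun x hx => kit_lk_sub hU hx)
  rwa [h2] at h1

/-- LEAF K3-INT: integrals of `0`-homogeneous functions (`integral_map`, `integral_smul_measure`; `f (kitRp x) = f x` for `x ∈ gmtBd S \ 0`, i.e. `μ`-a.e.). -/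
theorem kit_sg_integral {S U : Set (E k)} (hk : 2 ≤ k) (hS : MinCone k S) (hU : KitTube S U) {f : E k → ℝ}
    (hf : ContinuousOn f U) (hom : ∀ x ∈ U, ∀ t : ℝ, 0 < t → f (t • x) = f x) :
    ∫ x, f x ∂(kitSg S) = ((k : ℝ) - 1) * ∫ x in ball (0 : E k) 1, f x ∂(gmtMu S) := by
  have hk1 : (0 : ℝ) < (k : ℝ) - 1 := by
    have : (2 : ℝ) ≤ k := by exact_mod_cast hk
    linarith
  have hm := kit_sg_aesm hk hS hU hf
  have hm' : AEStronglyMeasurable f (((gmtMu S).restrict (ball 0 1)).map kitRp) := by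
    unfold kitSg at hm
    refine AEStronglyMeasurable.mono_ac ?_ hm
    refine Measure.AbsolutelyContinuous.mk fun s _ h => ?_
    rw [Measure.smul_apply, smul_eq_mul, mul_eq_zero] at h
    rcases h with h | h
    · exact absurd (ENNReal.ofReal_eq_zero.1 h) (not_le.2 hk1)
    · exact h
  have e1 : ∫ x, f x ∂(kitSg S) = ((k : ℝ) - 1) * ∫ x, f x ∂(((gmtMu S).restrict (ball 0 1)).map kitRp) := by
    unfold kitSg
    rw [integral_smul_measure, ENNReal.toReal_ofReal hk1.le, smul_eq_mul]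
  rw [e1, integral_map kit_rp_measurable.aemeasurable hm']
  congr 1
  refine integral_congr_ae (ae_restrict_of_ae ?_)
  filter_upwards [kit_mu_ae hk hS.lf hS.cone] with x hx
  exact hom x (hU.cone.bd x hx.1 hx.2) _ (inv_pos.2 (norm_pos_iff.2 hx.2))

/-- LEAF K3-ITG: continuous functions near the link are `σ`-integrable (bounded on the compact link, `σ` finite and carried by the link). -/
theorem kit_sg_integrable {S U : Set (E k)} (hk : 2 ≤ k) (hS : MinCone k S) (hU : KitTube S U) {f : E k → ℝ}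
    (hf : ContinuousOn f U) : Integrable f (kitSg S) := by
  have := kit_sg_finite hk hS.lf
  obtain ⟨C, hC⟩ := (kit_lk_compact S).exists_bound_of_continuousOn (hf.mono (kit_lk_sub hU))
  exact Integrable.of_bound (kit_sg_aesm hk hS hU hf) C ((kit_sg_ae hk hS.lf hS.cone).mono fun x hx => hC x hx)

/-- LEAF K3-CONG: only the values on the link matter. -/
theorem kit_sg_congr {S : Set (E k)} (hk : 2 ≤ k) (hS : MinCone k S) {f g : E k → ℝ} (h : ∀ x ∈ kitLk S, f x = g x) :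
    ∫ x, f x ∂(kitSg S) = ∫ x, g x ∂(kitSg S) :=
  integral_congr_ae ((kit_sg_ae hk hS.lf hS.cone).mono fun x hx => h x hx)

theorem kit_rp_continuousAt {x : E k} (hx : x ≠ 0) : ContinuousAt (kitRp : E k → E k) x :=
  (continuous_norm.continuousAt.inv₀ (norm_ne_zero_iff.2 hx)).smul continuousAt_id

/-- LEAF K3-POS: `σ` charges every ball centred on the link (`gmtBd_iff_gmtMu` at `y/2`: a small ball around `y/2` lies in `B_1 ∩ kitRp ⁻¹' ball y r`). -/
theorem kit_sg_pos {S : Set (E k)} (hk : 2 ≤ k) (hS : MinCone k S) {y : E k} (hy : y ∈ kitLk S) {r : ℝ} (hr : 0 < r) :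
    0 < kitSg S (ball y r) := by
  have hk1 : (0 : ℝ) < (k : ℝ) - 1 := by
    have : (2 : ℝ) ≤ k := by exact_mod_cast hk
    linarith
  have hy1 : ‖y‖ = 1 := by simpa using hy.2
  have hy0 : y ≠ 0 := fun h => by rw [h, norm_zero] at hy1; exact zero_ne_one hy1
  have hz0 : (2⁻¹ : ℝ) • y ≠ 0 := smul_ne_zero (by norm_num) hy0
  have hz : (2⁻¹ : ℝ) • y ∈ gmtBd S := (gmtSim_bd_smul hS.cone (by norm_num) y).2 hy.1
  have hrp : kitRp ((2⁻¹ : ℝ) • y) = y := by
    unfold kitRp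
    rw [norm_smul, hy1, smul_smul]
    norm_num
  have h1 : kitRp ⁻¹' ball y r ∈ 𝓝 ((2⁻¹ : ℝ) • y) :=
    (kit_rp_continuousAt hz0).preimage_mem_nhds (by rw [hrp]; exact ball_mem_nhds y hr)
  have h2 : ball (0 : E k) 1 ∈ 𝓝 ((2⁻¹ : ℝ) • y) := by
    refine isOpen_ball.mem_nhds ?_
    rw [mem_ball_zero_iff, norm_smul, hy1]
    norm_num
  obtain ⟨ρ, hρ, hsub⟩ := Metric.mem_nhds_iff.1 (inter_mem h1 h2)
  rw [kit_sg_apply S measurableSet_ball]
  refine ENNReal.mul_pos (by simpa using hk1) (ne_of_gt ?_)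
  exact lt_of_lt_of_le ((gmtBd_iff_gmtMu hS.meas _).1 hz ρ hρ) (measure_mono hsub)

/-- consequence: a continuous nonnegative function with zero integral vanishes on the link.   LEAF K3-VAN. -/
theorem kit_sg_eq_zero {S U : Set (E k)} (hk : 2 ≤ k) (hS : MinCone k S) (hU : KitTube S U) {f : E k → ℝ}
    (hf : ContinuousOn f U) (h0 : ∀ x ∈ kitLk S, 0 ≤ f x) (hint : ∫ x, f x ∂(kitSg S) = 0) : ∀ x ∈ kitLk S, f x = 0 := by
  intro x hx
  by_contra hne
  have hae : f =ᵐ[kitSg S] 0 :=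
    (integral_eq_zero_iff_of_nonneg_ae ((kit_sg_ae hk hS.lf hS.cone).mono fun x hx => h0 x hx) (kit_sg_integrable hk hS hU hf)).1 hint
  have hxU := kit_lk_sub hU hx
  have hc : ContinuousAt f x := hf.continuousAt (hU.cone.opn.mem_nhds hxU)
  obtain ⟨r, hr, hsub⟩ := Metric.mem_nhds_iff.1 (hc.eventually_ne hne)
  have h1 : kitSg S (ball x r) = 0 := measure_mono_null (fun z hz => hsub hz) (ae_iff.1 hae)
  exact absurd h1 (kit_sg_pos hk hS hx hr).ne'

end Claimed.Agent.R323
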