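import Claimed.Agent.R323.Kit.Polar
import Claimed.Agent.R323.Ix.GeoC

/-!
# Row 323, block K (KIT): THE WISH-LIST `W2`-`W6` OF BLOCK E (helper256).   Architect + prover: helper59.   Prefix `kit_`.

`u = gmtSimSd S`, `μ = gmtMu S`.
* W2 `kit_sd_lip`: `u` is `1`-Lipschitz (any `S`).
* W3 `kit_polar_mu`, `kit_polar_vol`: polar formulas (from `Kit/Polar.lean`).
* W4 `kit_weak_lap`: `∫_{B_1} |x|² Tg(u; x_a, χ) dμ = (k-2) ∫_{B_1} x_a χ dμ`.
* W5 `kit_A_ne_zero`, `kit_pos_dir`, and the consequence `kit_sd_bound`: `|u z| ≤ K |z|`, `K < 1`.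
* W6 `kit_bdd`, `kit_integrableOn`.
-/

set_option autoImplicit false
open scoped ContDiff ENNReal NNReal RealInnerProductSpace Topology
open MeasureTheory Metric Set Filter

namespace Claimed.Agent.R323

open Claimed.Agent.Gmt

variable {k : ℕ}

/-! ### W2 -/

theorem kit_int_isOpen (S : Set (E k)) : IsOpen (gmtSimInt S) := by
  rw [Metric.isOpen_iff]
  rintro x ⟨r, hr, h⟩
  refine ⟨r, hr, fun y hy => ⟨r - dist y x, sub_pos.2 hy, measure_mono_null
    (diff_subset_diff_left (ball_subset_ball' (by linarith))) h⟩⟩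

/-- the measure theoretic exterior. -/
def kitExt (S : Set (E k)) : Set (E k) := {x | ∃ r > 0, volume (S ∩ ball x r) = 0}

theorem kit_ext_isOpen (S : Set (E k)) : IsOpen (kitExt S) := by
  rw [Metric.isOpen_iff]
  rintro x ⟨r, hr, h⟩
  refine ⟨r, hr, fun y hy => ⟨r - dist y x, sub_pos.2 hy, measure_mono_null
    (inter_subset_inter_right _ (ball_subset_ball' (by linarith))) h⟩⟩

theorem kit_int_ext_disjoint (S : Set (E k)) : Disjoint (gmtSimInt S) (kitExt S) := by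
  rw [disjoint_left]
  rintro x ⟨r₁, hr₁, h₁⟩ ⟨r₂, hr₂, h₂⟩
  have hr : 0 < min r₁ r₂ := lt_min hr₁ hr₂
  have h3 : volume (ball x (min r₁ r₂)) = 0 := by
    refine measure_mono_null (t := (ball x r₁ \ S) ∪ (S ∩ ball x r₂)) (fun y hy => ?_)
      (measure_union_null h₁ h₂)
    by_cases hyS : y ∈ S
    · exact Or.inr ⟨hyS, ball_subset_ball (min_le_right _ _) hy⟩
    · exact Or.inl ⟨ball_subset_ball (min_le_left _ _) hy, hyS⟩
  exact (Metric.measure_ball_pos volume x hr).ne' h3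

theorem kit_int_ext_bd (S : Set (E k)) (x : E k) : x ∈ gmtSimInt S ∨ x ∈ kitExt S ∨ x ∈ gmtBd S := by
  by_cases h : x ∈ gmtBd S
  · exact Or.inr (Or.inr h)
  · have h' : ∃ r > 0, ¬ (0 < volume (S ∩ ball x r) ∧ 0 < volume (ball x r \ S)) := by
      by_contra hcon
      push_neg at hcon
      exact h fun r hr => ⟨(hcon r hr).1, (hcon r hr).2⟩
    obtain ⟨r, hr, h2⟩ := h'
    by_cases h3 : 0 < volume (S ∩ ball x r)
    · left
      refine ⟨r, hr, ?_⟩
      by_contra h4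
      exact h2 ⟨h3, pos_iff_ne_zero.2 h4⟩
    · right; left
      exact ⟨r, hr, by simpa using h3⟩

theorem kit_sd_lip_aux (S : Set (E k)) {x y : E k} (hx : x ∈ gmtSimInt S) (hy : y ∉ gmtSimInt S) :
    infDist x (gmtBd S) + infDist y (gmtBd S) ≤ dist x y := by
  have hz : ∃ z ∈ segment ℝ x y, z ∈ gmtBd S := by
    by_contra hcon
    push_neg at hcon
    have hsub : segment ℝ x y ⊆ gmtSimInt S ∪ kitExt S := by
      intro z hz
      rcases kit_int_ext_bd S z with h | h | h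
      · exact Or.inl h
      · exact Or.inr h
      · exact absurd h (hcon z hz)
    have := IsPreconnected.subset_left_of_subset_union (kit_int_isOpen S) (kit_ext_isOpen S)
      (kit_int_ext_disjoint S) hsub ⟨x, left_mem_segment ℝ x y, hx⟩ (convex_segment x y).isPreconnected
    exact hy (this (right_mem_segment ℝ x y))
  obtain ⟨z, hz, hzb⟩ := hz
  have h1 := infDist_le_dist_of_mem (x := x) hzb
  have h2 := infDist_le_dist_of_mem (x := y) hzb
  have h3 := dist_add_dist_of_mem_segment hz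
  rw [dist_comm y z] at h2
  linarith

theorem kit_sd_lip (S : Set (E k)) : LipschitzWith 1 (gmtSimSd S) := by
  refine LipschitzWith.of_dist_le_mul fun x y => ?_
  rw [NNReal.coe_one, one_mul, Real.dist_eq]
  have hd : |infDist x (gmtBd S) - infDist y (gmtBd S)| ≤ dist x y := by
    have := (Metric.lipschitz_infDist_pt (gmtBd S)).dist_le_mul x y
    rwa [NNReal.coe_one, one_mul, Real.dist_eq] at this
  have n1 : 0 ≤ infDist x (gmtBd S) := infDist_nonneg
  have n2 : 0 ≤ infDist y (gmtBd S) := infDist_nonneg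
  unfold gmtSimSd
  by_cases hx : x ∈ gmtSimInt S <;> by_cases hy : y ∈ gmtSimInt S
  · rw [if_pos hx, if_pos hy]
    rw [abs_sub_comm] at hd
    convert hd using 2
    ring
  · rw [if_pos hx, if_neg hy]
    have := kit_sd_lip_aux S hx hy
    rw [abs_le]
    constructor <;> linarith
  · rw [if_neg hx, if_pos hy]
    have := kit_sd_lip_aux S hy hx
    rw [dist_comm] at this
    rw [abs_le]
    constructor <;> linarith
  · rw [if_neg hx, if_neg hy]
    exact hd

/-! ### W3, W6 -/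

theorem kit_scale_mu {S : Set (E k)} (hk : 1 ≤ k) (hS : MeasurableSet S) (hc : GmtCone S) : KitpScale (gmtMu S) (k - 1) := by
  intro t ht A _
  have h := gmtMu_gmtDil hS (0 : E k) ht A
  rw [gmtSimC_mu_dil hS hc ht] at h
  have e : gmtDil (0 : E k) t A = (fun x => t • x) ⁻¹' A := by
    ext z
    show (0 : E k) + t • z ∈ A ↔ t • z ∈ A
    rw [zero_add]
  rw [e] at h
  have e2 : ENNReal.ofReal (t ^ k) = ENNReal.ofReal t * ENNReal.ofReal (t ^ (k - 1)) := by
    rw [← ENNReal.ofReal_mul ht.le, ← pow_succ', Nat.sub_add_cancel hk]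
  rw [e2, mul_comm (ENNReal.ofReal t), ← mul_assoc, mul_comm _ (ENNReal.ofReal t)] at h
  exact (ENNReal.mul_right_inj (by simpa using ht) ENNReal.ofReal_ne_top).1 h

theorem kit_scale_vol : KitpScale (volume : Measure (E k)) k := by
  intro t ht A _
  rw [Measure.addHaar_preimage_smul volume ht.ne' A, finrank_euclideanSpace_fin, abs_of_pos (by positivity),
    mul_comm, ← mul_assoc, ← ENNReal.ofReal_mul (by positivity), mul_inv_cancel₀ (by positivity), ENNReal.ofReal_one,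
    one_mul]

theorem kit_polar_mu {S : Set (E k)} (hk : 2 ≤ k) (hlf : GmtLF S univ) (hc : GmtCone S)
    {J : E k → ℝ≥0∞} (hJ : Measurable J) (hom : ∀ t : ℝ, 0 < t → ∀ x, J (t • x) = J x)
    {g : ℝ → ℝ≥0∞} (hg : Measurable g) :
    ∫⁻ p, g ‖p‖ * J p ∂(gmtMu S) =
      (ENNReal.ofReal ((k : ℝ) - 1) * ∫⁻ r in Ioi (0 : ℝ), g r * ENNReal.ofReal (r ^ (k - 2))) *
        ∫⁻ p in ball 0 1, J p ∂(gmtMu S) := by
  have hfin : gmtMu S (ball 0 1) ≠ ⊤ :=
    ne_top_of_le_ne_top (gmtMu_compact_ne_top isOpen_univ hlf (isCompact_closedBall (0 : E k) 1) (subset_univ _))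
      (measure_mono ball_subset_closedBall)
  have h := kitp_polar (d := k - 1) (by omega) hfin (kit_scale_mu (by omega) hlf.1 hc) hJ hom hg
  have e1 : ((k - 1 : ℕ) : ℝ) = (k : ℝ) - 1 := by
    rw [Nat.cast_sub (by omega)]; simp
  have e2 : k - 1 - 1 = k - 2 := by omega
  rw [e1, e2] at h
  exact h

theorem kit_polar_vol (hk : 1 ≤ k) {J : E k → ℝ≥0∞} (hJ : Measurable J) (hom : ∀ t : ℝ, 0 < t → ∀ x, J (t • x) = J x)
    {g : ℝ → ℝ≥0∞} (hg : Measurable g) :
    ∫⁻ p : E k, g ‖p‖ * J p =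
      (ENNReal.ofReal (k : ℝ) * ∫⁻ r in Ioi (0 : ℝ), g r * ENNReal.ofReal (r ^ (k - 1))) *
        ∫⁻ p in ball (0 : E k) 1, J p :=
  kitp_polar hk measure_ball_lt_top.ne kit_scale_vol hJ hom hg

/-- **W6a** -/
theorem kit_bdd {S U : Set (E k)} (hS : MinCone k S) (hU : KitTube S U) {f : E k → ℝ} (hf : ContinuousOn f U)
    (hom : ∀ x ∈ U, ∀ t : ℝ, 0 < t → f (t • x) = f x) : ∃ C : ℝ, ∀ x ∈ gmtBd S, x ≠ 0 → |f x| ≤ C := by
  obtain ⟨C, hC⟩ := (kit_lk_compact S).exists_bound_of_continuousOn (hf.mono (kit_lk_sub hU))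
  refine ⟨C, fun x hx hx0 => ?_⟩
  have h1 := hC _ (kit_rp_mem hS.cone hx hx0)
  have hxU : x ∈ U := hU.cone.bd x hx hx0
  unfold kitRp at h1
  rw [hom x hxU _ (inv_pos.2 (norm_pos_iff.2 hx0))] at h1
  exact h1

/-- **W6b** -/
theorem kit_integrableOn {S U : Set (E k)} (hk : 2 ≤ k) (hS : MinCone k S) (hU : KitTube S U) {f : E k → ℝ}
    (hf : ContinuousOn f U) (hom : ∀ x ∈ U, ∀ t : ℝ, 0 < t → f (t • x) = f x) (R : ℝ) :
    IntegrableOn f (ball 0 R) (gmtMu S) := by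
  obtain ⟨C, hC⟩ := kit_bdd hS hU hf hom
  have hfin : gmtMu S (ball 0 R) ≠ ⊤ :=
    ne_top_of_le_ne_top (gmtMu_compact_ne_top isOpen_univ hS.lf (isCompact_closedBall (0 : E k) R) (subset_univ _))
      (measure_mono ball_subset_closedBall)
  have hae := kit_ae_bd hk hS
  have hUc : gmtMu S Uᶜ = 0 := by
    refine measure_mono_null (fun x hx => ?_) (ae_iff.1 hae)
    exact fun h => hx (hU.cone.bd x h.1 h.2)
  have hm : AEStronglyMeasurable f (gmtMu S) := by
    have h1 : AEStronglyMeasurable f ((gmtMu S).restrict U) :=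
      hf.aestronglyMeasurable hU.cone.opn.measurableSet
    rwa [Measure.restrict_eq_self_of_ae_mem (mem_ae_iff.2 hUc)] at h1
  refine Measure.integrableOn_of_bounded (M := C) hfin hm ?_
  refine ae_restrict_of_ae ?_
  filter_upwards [hae] with x hx
  exact hC x hx.1 hx.2

/-! ### W4, W5 -/

/-- **W5a** -/
theorem kit_A_ne_zero (hk : 3 ≤ k) {S : Set (E k)} (hS : MinCone k S) (hnf : ¬ IsHalf S) :
    ∃ p ∈ gmtBd S, p ≠ 0 ∧ gmtSimA (gmtSimSd S) p ≠ 0 := by
  by_contra hcon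
  push_neg at hcon
  obtain ⟨U, hU, -⟩ := kit_tube hS
  exact hnf (gmtSim_flat_global hk hS.meas hS.vert (gmtSim_flat_local hU hcon))

/-- **W4**: the weak form of `Δ_Σ x_a = -(k-2) x_a`. -/
theorem kit_weak_lap {m : ℕ} {S : Set (E (m + 2))} (hS : MinCone (m + 2) S) (a : E (m + 2)) {χ : E (m + 2) → ℝ} (hχ : Hom0 χ) :
    ∫ x in ball (0 : E (m + 2)) 1, ‖x‖ ^ 2 * gmtSimTg (gmtSimSd S) (fun y => ⟪a, y⟫ / ‖y‖) χ x ∂(gmtMu S) =
      (m : ℝ) * ∫ x in ball (0 : E (m + 2)) 1, ⟪a, x⟫ / ‖x‖ * χ x ∂(gmtMu S) := by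
  obtain ⟨U, hU, hcon⟩ := kit_tube hS
  have hk : 2 ≤ m + 2 := by omega
  have hT := ix_geo_tube hS hU hcon
  have hKU : KitTube S U := ⟨hU, hcon⟩
  have hχ' : IxFun U χ := (Hom0.kitFun hU.zero hχ).ixFun
  have hX := ixFun_X hT a
  have hL := ixFun_lap hT hX
  have hTg := ixFun_tg hT hX hχ'
  have h0 := ix_geo_ibp hk hS hU hcon χ (ixX a) hχ' hX
  rw [ix_sig_eq] at h0
  have i1 : Integrable (fun x => χ x * ixLap (gmtSimSd S) (ixX a) x) (kitSg S) :=
    kit_sg_integrable hk hS hKU (hχ'.mul hL).smooth.continuousOn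
  have i2 : Integrable (fun x => ixTg (gmtSimSd S) χ (ixX a) x) (kitSg S) :=
    kit_sg_integrable hk hS hKU (ixFun_tg hT hχ' hX).smooth.continuousOn
  rw [integral_add i1 i2] at h0
  have e1 : ∫ x, χ x * ixLap (gmtSimSd S) (ixX a) x ∂(kitSg S) = -(m : ℝ) * ∫ x, ixX a x * χ x ∂(kitSg S) := by
    rw [← integral_const_mul]
    refine kit_sg_congr hk hS fun x hx => ?_
    rw [← ix_link_eq hS hU] at hx
    rw [ixLap_X hT a hx]
    ring
  have e2 : ∫ x, ixTg (gmtSimSd S) χ (ixX a) x ∂(kitSg S) = ∫ x, ixTg (gmtSimSd S) (ixX a) χ x ∂(kitSg S) :=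
    integral_congr_ae (Eventually.of_forall fun x => ixTg_comm _ _ _ x)
  rw [e1, e2, ← ix_sig_eq, ix_geo_integral hk hS hU hcon hTg, ix_geo_integral hk hS hU hcon (hX.mul hχ')] at h0
  have hk1 : ((m + 2 : ℕ) : ℝ) - 1 ≠ 0 := by
    push_cast
    have : (0 : ℝ) ≤ m := Nat.cast_nonneg m
    linarith
  have h1 : ((m + 2 : ℕ) : ℝ) - 1 = 0 ∨
      ∫ x in ball (0 : E (m + 2)) 1, ixTg (gmtSimSd S) (ixX a) χ x ∂(gmtMu S)
        - (m : ℝ) * ∫ x in ball (0 : E (m + 2)) 1, ixX a x * χ x ∂(gmtMu S) = 0 := by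
    rw [← mul_eq_zero]
    linarith
  have h2 := h1.resolve_left hk1
  exact sub_eq_zero.1 h2

/-- **W5b**: the link lies in no closed hemisphere. -/
theorem kit_pos_dir {m : ℕ} (hm : 1 ≤ m) {S : Set (E (m + 2))} (hS : MinCone (m + 2) S) (hnf : ¬ IsHalf S)
    (z : E (m + 2)) (hz : z ≠ 0) : ∃ p ∈ kitLk S, 0 < ⟪z, p⟫ := by
  obtain ⟨U, hU, hcon⟩ := kit_tube hS
  have hG := ix_geo (by omega) hS hnf hU hcon
  have hT := hG.toIxTube
  by_contra hneg
  push_neg at hneg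
  have hX := ixFun_X hT z
  have h1 := ix_integral_lap hG hX
  have h2 : ∫ x, ixLap (gmtSimSd S) (ixX z) x ∂(ixSig S) = (m : ℝ) * ∫ x, -ixX z x ∂(ixSig S) := by
    rw [← integral_const_mul]
    refine ix_integral_congr hG fun x hx => ?_
    rw [ixLap_X hT z hx]
    ring
  rw [h1] at h2
  have hm0 : (m : ℝ) ≠ 0 := by
    have : (1 : ℝ) ≤ m := by exact_mod_cast hm
    linarith
  have h3 : ∫ x, -ixX z x ∂(ixSig S) = 0 := (mul_eq_zero.1 h2.symm).resolve_left hm0
  have h4 := ix_eq_zero_of_integral hG hX.neg (fun x hx => by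
    have hx' := hx
    rw [ix_link_eq hS hU] at hx'
    have hx1 : ‖x‖ = 1 := hx.2.2
    have := hneg x hx'
    unfold ixX
    rw [hx1, div_one]
    linarith) h3
  refine hz (hG.full z fun x hx => ?_)
  have := h4 x hx
  have hx1 : ‖x‖ = 1 := hx.2.2
  unfold ixX at this
  rw [hx1, div_one] at this
  linarith

/-- consequence of W5b (compactness of the sphere): the field `bd` of `FaSd`. -/
theorem kit_sd_bound {m : ℕ} (hm : 1 ≤ m) {S : Set (E (m + 2))} (hS : MinCone (m + 2) S) (hnf : ¬ IsHalf S) :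
    ∃ K : ℝ, 0 ≤ K ∧ K < 1 ∧ ∀ z, |gmtSimSd S z| ≤ K * ‖z‖ := by
  have hne : (sphere (0 : E (m + 2)) 1).Nonempty := by
    have : Nontrivial (E (m + 2)) := inferInstance
    exact NormedSpace.sphere_nonempty.2 zero_le_one
  obtain ⟨z₀, hz₀, hmax⟩ := (isCompact_sphere (0 : E (m + 2)) 1).exists_isMaxOn hne
    (Metric.continuous_infDist_pt (gmtBd S)).continuousOn
  have hz₀1 : ‖z₀‖ = 1 := by simpa using hz₀
  have hz₀0 : z₀ ≠ 0 := fun h => by rw [h, norm_zero] at hz₀1; exact zero_ne_one hz₀1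
  obtain ⟨p, hp, hpos⟩ := kit_pos_dir hm hS hnf z₀ hz₀0
  have hp1 : ‖p‖ = 1 := by simpa using hp.2
  refine ⟨infDist z₀ (gmtBd S), infDist_nonneg, ?_, fun z => ?_⟩
  · set t := ⟪z₀, p⟫ with ht
    have hmem : t • p ∈ gmtBd S := (gmtSim_bd_smul hS.cone hpos p).2 hp.1
    have h1 := infDist_le_dist_of_mem (x := z₀) hmem
    have h2 : dist z₀ (t • p) ^ 2 = 1 - t ^ 2 := by
      rw [dist_eq_norm, norm_sub_sq_real, hz₀1, norm_smul, hp1, inner_smul_right, ← ht, Real.norm_eq_abs, mul_one,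
        sq_abs]
      ring
    have h3 : dist z₀ (t • p) < 1 := by
      have : dist z₀ (t • p) ^ 2 < 1 ^ 2 := by rw [h2]; nlinarith
      exact lt_of_pow_lt_pow_left₀ 2 zero_le_one this
    linarith
  · by_cases hz : z = 0
    · rw [hz, norm_zero, mul_zero, gmtSim_abs_sd, infDist_zero_of_mem hS.vert]
    · have hzn : 0 < ‖z‖ := norm_pos_iff.2 hz
      have h1 : infDist (kitRp z) (gmtBd S) ≤ infDist z₀ (gmtBd S) :=
        hmax (by simpa using kit_rp_norm hz)
      have h2 : gmtSimSd S z = ‖z‖ * gmtSimSd S (kitRp z) := by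
        rw [← gmtSim_sd_smul hS.cone hzn, kit_norm_smul_rp]
      rw [h2, abs_mul, abs_of_pos hzn, gmtSim_abs_sd, mul_comm]
      exact mul_le_mul_of_nonneg_right h1 hzn.le

end Claimed.Agent.R323
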