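import Mathlib

/-!
# Row 323, block K (KIT), W3: ABSTRACT POLAR FORMULA for a measure which scales like `t^d`.   Architect: helper59.   Prefix `kitp_`.   MATHLIB ONLY.

`μ` a measure on a normed space `F`, `μ (B_1) < ∞`, `μ ((t • ·) ⁻¹' A) t^d = μ A` (`d ≥ 1`).  For `J` measurable `0`-homogeneous and `g` measurable:
`∫⁻ g(‖p‖) J(p) dμ = d ∫⁻_{(0,∞)} g(r) r^{d-1} dr · ∫⁻_{B_1} J dμ`.
PLAN.
1. `kitp_zero`: `μ {0} = 0` (`t = 2`, `A = {0}`: `μ{0} 2^d = μ{0} < ∞`).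
2. `kitp_ball`: `∫⁻_{B_r} J dμ = r^d ∫⁻_{B_1} J dμ` (the scaling says `μ.map (t • ·) = t^d... `: `∫⁻ f(t • x) dμ(x) · t^d = ∫⁻ f dμ` for measurable `f`: `lintegral` induction or `Measure.ext` of `(μ.map (t • ·))` with `t^{-d} μ`; apply to `f = 1_{B_r} J`, `t = r`).
3. BOUNDED `J` (`c = ∫⁻_{B_1} J dμ < ∞`): `ν = (μ.withDensity J).map ‖·‖` and `ν' = c • (volume.restrict (Ioi 0)).withDensity (d r^{d-1})` are locally finite measures on `ℝ` with `ν (Iio r) = ν' (Iio r) = c r^d` (`r > 0`), `= 0`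
   (`r ≤ 0`; uses 1. for `ν {0}`... in fact `ν (Iio 0) = 0` trivially and `ν (Iic 0) = J 0 μ{0} = 0`); so they agree on `Ico a b` (differences of finite numbers): `Measure.ext_of_Ico`.   `∫_0^r d s^{d-1} ds = r^d`: `integral_pow` + `ofReal_integral_eq_lintegral_ofReal`, or FTC.
   Then `∫⁻ g dν = ∫⁻ g(‖p‖) J dμ` (`lintegral_map`, `lintegral_withDensity_eq_lintegral_mul`).
4. GENERAL `J`: `J_n = min J n` increases to `J`; monotone convergence on both sides (`lintegral_iSup`/`lintegral_tendsto_of_tendsto_of_monotone`, `ENNReal.mul_iSup`).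
-/

set_option autoImplicit false
open scoped ENNReal NNReal Topology
open MeasureTheory Metric Set Filter

namespace Claimed.Agent.R323

variable {F : Type*} [NormedAddCommGroup F] [NormedSpace ℝ F] [MeasurableSpace F] [BorelSpace F]

/-- the scaling hypothesis. -/
def KitpScale (μ : Measure F) (d : ℕ) : Prop :=
  ∀ t : ℝ, 0 < t → ∀ A : Set F, MeasurableSet A → μ ((fun x => t • x) ⁻¹' A) * ENNReal.ofReal (t ^ d) = μ A

/-- generates the equation lemma of the definition above in this file -/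
theorem kitp_eqns_cite : True := by
  have := @KitpScale.eq_1.{0}
  trivial

/-- scaling of integrals -/
theorem kitp_lintegral {μ : Measure F} {d : ℕ} (hsc : KitpScale μ d) {t : ℝ} (ht : 0 < t) {f : F → ℝ≥0∞} (hf : Measurable f) :
    (∫⁻ x, f (t • x) ∂μ) * ENNReal.ofReal (t ^ d) = ∫⁻ x, f x ∂μ := by
  have hT : Measurable (fun x : F => t • x) := (continuous_const_smul t).measurable
  have hμ : μ = ENNReal.ofReal (t ^ d) • μ.map (fun x => t • x) := by
    ext A hA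
    rw [Measure.smul_apply, Measure.map_apply hT hA, smul_eq_mul, mul_comm]
    exact (hsc t ht A hA).symm
  conv_rhs => rw [hμ]
  rw [lintegral_smul_measure, lintegral_map hf hT, smul_eq_mul, mul_comm]

theorem kitp_ball_ne_top {μ : Measure F} {d : ℕ} (hfin : μ (ball 0 1) ≠ ⊤) (hsc : KitpScale μ d) {r : ℝ} (hr : 0 < r) :
    μ (ball 0 r) ≠ ⊤ := by
  have h := hsc r⁻¹ (inv_pos.2 hr) (ball 0 1) measurableSet_ball
  have e : (fun x : F => r⁻¹ • x) ⁻¹' ball 0 1 = ball 0 r := by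
    ext x
    simp only [mem_preimage, mem_ball_zero_iff, norm_smul, norm_inv, Real.norm_eq_abs, abs_of_pos hr]
    rw [inv_mul_lt_iff₀ hr, mul_one]
  rw [e] at h
  intro htop
  have hpos : ENNReal.ofReal (r⁻¹ ^ d) ≠ 0 := by
    rw [Ne, ENNReal.ofReal_eq_zero, not_le]
    positivity
  rw [htop, ENNReal.top_mul hpos] at h
  exact hfin h.symm

theorem kitp_zero {μ : Measure F} {d : ℕ} (hd : 1 ≤ d) (hfin : μ (ball 0 1) ≠ ⊤) (hsc : KitpScale μ d) : μ {0} = 0 := by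
  have h := hsc 2 two_pos {0} (measurableSet_singleton 0)
  have e : (fun x : F => (2 : ℝ) • x) ⁻¹' {0} = {0} := by
    ext x
    simp
  rw [e] at h
  by_contra h0
  have hne : μ {0} ≠ ⊤ := ne_top_of_le_ne_top hfin (measure_mono (by simp))
  have h1 : ENNReal.ofReal ((2 : ℝ) ^ d) = 1 := (ENNReal.mul_eq_left h0 hne).1 h
  rw [ENNReal.ofReal_eq_one] at h1
  have h2 : (2 : ℝ) ^ 1 ≤ 2 ^ d := pow_le_pow_right₀ (by norm_num) hd
  linarith

theorem kitp_sigmaFinite {μ : Measure F} {d : ℕ} (hfin : μ (ball 0 1) ≠ ⊤) (hsc : KitpScale μ d) : SigmaFinite μ := by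
  refine ⟨⟨⟨fun n => ball 0 ((n : ℝ) + 1), fun _ => trivial,
    fun n => (kitp_ball_ne_top hfin hsc (by positivity)).lt_top, ?_⟩⟩⟩
  rw [eq_univ_iff_forall]
  intro x
  rw [mem_iUnion]
  obtain ⟨n, hn⟩ := exists_nat_gt ‖x‖
  exact ⟨n, by rw [mem_ball_zero_iff]; linarith⟩

theorem kitp_ball {μ : Measure F} {d : ℕ} (hsc : KitpScale μ d) {J : F → ℝ≥0∞} (hJ : Measurable J)
    (hom : ∀ t : ℝ, 0 < t → ∀ x, J (t • x) = J x) {r : ℝ} (hr : 0 < r) :
    ∫⁻ p in ball 0 r, J p ∂μ = ENNReal.ofReal (r ^ d) * ∫⁻ p in ball 0 1, J p ∂μ := by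
  have h := kitp_lintegral hsc hr (f := (ball 0 r).indicator J) (hJ.indicator measurableSet_ball)
  rw [lintegral_indicator measurableSet_ball] at h
  rw [← h, mul_comm]
  congr 1
  rw [← lintegral_indicator measurableSet_ball]
  congr 1
  funext x
  have hiff : r • x ∈ ball (0 : F) r ↔ x ∈ ball (0 : F) 1 := by
    simp only [mem_ball_zero_iff, norm_smul, Real.norm_eq_abs, abs_of_pos hr]
    constructor
    · intro h1
      nlinarith
    · intro h1
      nlinarith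
  by_cases hx : x ∈ ball (0 : F) 1
  · rw [indicator_of_mem hx, indicator_of_mem (hiff.2 hx), hom r hr]
  · rw [indicator_of_notMem hx, indicator_of_notMem (fun h1 => hx (hiff.1 h1))]

/-- scale invariance of `dt / t` -/
theorem kitp_cov {g : ℝ → ℝ≥0∞} (hg : Measurable g) {a : ℝ} (ha : 0 < a) :
    ∫⁻ t in Ioi (1 : ℝ), ENNReal.ofReal t⁻¹ * g (t * a) = ∫⁻ s in Ioi a, ENNReal.ofReal s⁻¹ * g s := by
  have hψ : Measurable ((Ioi a).indicator fun s => ENNReal.ofReal s⁻¹ * g s) :=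
    ((ENNReal.measurable_ofReal.comp measurable_inv).mul hg).indicator measurableSet_Ioi
  have h1 : ∫⁻ t, (Ioi a).indicator (fun s => ENNReal.ofReal s⁻¹ * g s) (t * a)
      = ENNReal.ofReal |a⁻¹| * ∫⁻ s, (Ioi a).indicator (fun s => ENNReal.ofReal s⁻¹ * g s) s := by
    rw [← lintegral_map hψ (measurable_mul_const a), Real.map_volume_mul_right ha.ne', lintegral_smul_measure, smul_eq_mul]
  rw [← lintegral_indicator measurableSet_Ioi, ← lintegral_indicator measurableSet_Ioi]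
  have h2 : ENNReal.ofReal a * ENNReal.ofReal |a⁻¹| = 1 := by
    rw [← ENNReal.ofReal_mul ha.le, abs_of_pos (inv_pos.2 ha), mul_inv_cancel₀ ha.ne', ENNReal.ofReal_one]
  calc ∫⁻ t, (Ioi (1 : ℝ)).indicator (fun t => ENNReal.ofReal t⁻¹ * g (t * a)) t
      = ∫⁻ t, ENNReal.ofReal a * (Ioi a).indicator (fun s => ENNReal.ofReal s⁻¹ * g s) (t * a) := by
        congr 1
        funext t
        have hiff : t * a ∈ Ioi a ↔ t ∈ Ioi (1 : ℝ) := by
          simp only [mem_Ioi]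
          constructor
          · intro h3
            by_contra h4
            nlinarith
          · intro h3
            nlinarith
        by_cases ht : t ∈ Ioi (1 : ℝ)
        · have ht0 : (0 : ℝ) < t := lt_trans one_pos ht
          rw [indicator_of_mem ht, indicator_of_mem (hiff.2 ht), ← mul_assoc, ← ENNReal.ofReal_mul ha.le]
          congr 2
          field_simp
        · rw [indicator_of_notMem ht, indicator_of_notMem (fun h3 => ht (hiff.1 h3)), mul_zero]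
    _ = ENNReal.ofReal a * ∫⁻ t, (Ioi a).indicator (fun s => ENNReal.ofReal s⁻¹ * g s) (t * a) :=
        lintegral_const_mul _ (hψ.comp (measurable_mul_const a))
    _ = ∫⁻ s, (Ioi a).indicator (fun s => ENNReal.ofReal s⁻¹ * g s) s := by
        rw [h1, ← mul_assoc, h2, one_mul]

theorem kitp_pow_int {d : ℕ} (hd : 1 ≤ d) :
    ∫⁻ t in Ioi (1 : ℝ), ENNReal.ofReal (t⁻¹ * (t ^ d)⁻¹) = ENNReal.ofReal (1 / d) := by
  have hdR : (1 : ℝ) ≤ (d : ℝ) := by exact_mod_cast hd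
  have ha : -((d : ℝ) + 1) < -1 := by linarith
  have h1 : ∫⁻ t in Ioi (1 : ℝ), ENNReal.ofReal (t⁻¹ * (t ^ d)⁻¹) = ∫⁻ t in Ioi (1 : ℝ), ENNReal.ofReal (t ^ (-((d : ℝ) + 1))) := by
    refine setLIntegral_congr_fun measurableSet_Ioi fun t ht => ?_
    have ht0 : (0 : ℝ) < t := lt_trans one_pos ht
    congr 1
    rw [Real.rpow_neg ht0.le, Real.rpow_add ht0, Real.rpow_natCast, Real.rpow_one, mul_inv, mul_comm]
  rw [h1, ← ofReal_integral_eq_lintegral_ofReal (integrableOn_Ioi_rpow_of_lt ha one_pos)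
    ((ae_restrict_iff' measurableSet_Ioi).2 (Eventually.of_forall fun t ht => Real.rpow_nonneg (lt_trans one_pos ht).le _)),
    integral_Ioi_rpow_of_lt ha one_pos, Real.one_rpow]
  congr 1
  have hd0 : (d : ℝ) ≠ 0 := by linarith
  have e : -((d : ℝ) + 1) + 1 = -(d : ℝ) := by ring
  rw [e, neg_div_neg_eq]

/-- **L-K3-W3** (the whole file is one leaf; add auxiliary lemmas `kitp_*` above). -/
theorem kitp_polar {μ : Measure F} {d : ℕ} (hd : 1 ≤ d) (hfin : μ (ball 0 1) ≠ ⊤) (hsc : KitpScale μ d)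
    {J : F → ℝ≥0∞} (hJ : Measurable J) (hom : ∀ t : ℝ, 0 < t → ∀ x, J (t • x) = J x)
    {g : ℝ → ℝ≥0∞} (hg : Measurable g) :
    ∫⁻ p, g ‖p‖ * J p ∂μ =
      (ENNReal.ofReal d * ∫⁻ r in Ioi (0 : ℝ), g r * ENNReal.ofReal (r ^ (d - 1))) * ∫⁻ p in ball 0 1, J p ∂μ := by
  have := kitp_sigmaFinite hfin hsc
  obtain ⟨I, hI⟩ : ∃ I, I = ∫⁻ p, g ‖p‖ * J p ∂μ := ⟨_, rfl⟩
  obtain ⟨c, hc⟩ : ∃ c, c = ∫⁻ p in ball 0 1, J p ∂μ := ⟨_, rfl⟩
  obtain ⟨G, hG⟩ : ∃ G, G = ∫⁻ r in Ioi (0 : ℝ), g r * ENNReal.ofReal (r ^ (d - 1)) := ⟨_, rfl⟩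
  rw [← hI, ← hc, ← hG]
  have hinv : Measurable fun t : ℝ => ENNReal.ofReal t⁻¹ := ENNReal.measurable_ofReal.comp measurable_inv
  -- (1) the first double integral
  have hA : ∫⁻ t in Ioi (1 : ℝ), ∫⁻ p, ENNReal.ofReal t⁻¹ * (g (t * ‖p‖) * J p) ∂μ = I * ENNReal.ofReal (1 / d) := by
    have h1 : EqOn (fun t : ℝ => ∫⁻ p, ENNReal.ofReal t⁻¹ * (g (t * ‖p‖) * J p) ∂μ)
        (fun t => I * ENNReal.ofReal (t⁻¹ * (t ^ d)⁻¹)) (Ioi (1 : ℝ)) := by
      intro t ht
      have ht0 : (0 : ℝ) < t := lt_trans one_pos ht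
      have hm : Measurable fun p : F => g (t * ‖p‖) * J p := (hg.comp (measurable_norm.const_mul t)).mul hJ
      simp only
      rw [lintegral_const_mul _ hm]
      have h2 := kitp_lintegral hsc ht0 (f := fun p => g ‖p‖ * J p) ((hg.comp measurable_norm).mul hJ)
      have h3 : ∫⁻ x, g ‖t • x‖ * J (t • x) ∂μ = ∫⁻ p, g (t * ‖p‖) * J p ∂μ := by
        congr 1
        funext x
        rw [norm_smul, Real.norm_eq_abs, abs_of_pos ht0, hom t ht0]
      rw [h3, ← hI] at h2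
      rw [← h2, ENNReal.ofReal_mul (inv_nonneg.2 ht0.le)]
      have h4 : ENNReal.ofReal (t ^ d) * ENNReal.ofReal (t ^ d)⁻¹ = 1 := by
        rw [← ENNReal.ofReal_mul (by positivity), mul_inv_cancel₀ (by positivity), ENNReal.ofReal_one]
      calc ENNReal.ofReal t⁻¹ * ∫⁻ p, g (t * ‖p‖) * J p ∂μ
          = ENNReal.ofReal t⁻¹ * (∫⁻ p, g (t * ‖p‖) * J p ∂μ) * (ENNReal.ofReal (t ^ d) * ENNReal.ofReal (t ^ d)⁻¹) := by
            rw [h4, mul_one]
        _ = (∫⁻ p, g (t * ‖p‖) * J p ∂μ) * ENNReal.ofReal (t ^ d) * (ENNReal.ofReal t⁻¹ * ENNReal.ofReal (t ^ d)⁻¹) := by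
            ring
    rw [setLIntegral_congr_fun measurableSet_Ioi h1, lintegral_const_mul _ (by fun_prop), kitp_pow_int hd]
  -- (2) Tonelli
  have hsw1 : ∫⁻ t in Ioi (1 : ℝ), ∫⁻ p, ENNReal.ofReal t⁻¹ * (g (t * ‖p‖) * J p) ∂μ
      = ∫⁻ p, (∫⁻ t in Ioi (1 : ℝ), ENNReal.ofReal t⁻¹ * (g (t * ‖p‖) * J p)) ∂μ := by
    refine lintegral_lintegral_swap (Measurable.aemeasurable ?_)
    exact (hinv.comp measurable_fst).mul
      ((hg.comp (measurable_fst.mul (measurable_norm.comp measurable_snd))).mul (hJ.comp measurable_snd))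
  -- (3) the inner integral
  have hK : Measurable ({x : ℝ × F | ‖x.2‖ < x.1}.indicator fun x : ℝ × F => ENNReal.ofReal x.1⁻¹ * g x.1 * J x.2) :=
    (((hinv.comp measurable_fst).mul (hg.comp measurable_fst)).mul (hJ.comp measurable_snd)).indicator
      (measurableSet_lt (measurable_norm.comp measurable_snd) measurable_fst)
  have hin : ∀ p : F, p ≠ 0 → ∫⁻ t in Ioi (1 : ℝ), ENNReal.ofReal t⁻¹ * (g (t * ‖p‖) * J p)
      = ∫⁻ s in Ioi (0 : ℝ), {x : ℝ × F | ‖x.2‖ < x.1}.indicator (fun x : ℝ × F => ENNReal.ofReal x.1⁻¹ * g x.1 * J x.2) (s, p) := by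
    intro p hp
    have ha : 0 < ‖p‖ := norm_pos_iff.2 hp
    have e1 : ∫⁻ t in Ioi (1 : ℝ), ENNReal.ofReal t⁻¹ * (g (t * ‖p‖) * J p)
        = (∫⁻ t in Ioi (1 : ℝ), ENNReal.ofReal t⁻¹ * g (t * ‖p‖)) * J p := by
      rw [← lintegral_mul_const _ (show Measurable fun t : ℝ => ENNReal.ofReal t⁻¹ * g (t * ‖p‖) from
        hinv.mul (hg.comp (measurable_id.mul_const ‖p‖)))]
      congr 1
      funext t
      ring
    rw [e1, kitp_cov hg ha, ← lintegral_mul_const _ (show Measurable fun t : ℝ => ENNReal.ofReal t⁻¹ * g t from hinv.mul hg), ← lintegral_indicator measurableSet_Ioi,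
      ← lintegral_indicator measurableSet_Ioi]
    congr 1
    funext s
    by_cases hs : ‖p‖ < s
    · rw [indicator_of_mem (show s ∈ Ioi ‖p‖ from hs), indicator_of_mem (show s ∈ Ioi (0 : ℝ) from lt_trans ha hs),
        indicator_of_mem (show (s, p) ∈ {x : ℝ × F | ‖x.2‖ < x.1} from hs)]
    · rw [indicator_of_notMem (show s ∉ Ioi ‖p‖ from hs)]
      by_cases hs0 : s ∈ Ioi (0 : ℝ)
      · rw [indicator_of_mem hs0, indicator_of_notMem (show (s, p) ∉ {x : ℝ × F | ‖x.2‖ < x.1} from hs)]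
      · rw [indicator_of_notMem hs0]
  have hae : ∀ᵐ p ∂μ, p ≠ 0 := by
    have := (measure_eq_zero_iff_ae_notMem).1 (kitp_zero hd hfin hsc)
    filter_upwards [this] with p hp h0
    exact hp (by rw [h0]; rfl)
  have hB : ∫⁻ p, (∫⁻ t in Ioi (1 : ℝ), ENNReal.ofReal t⁻¹ * (g (t * ‖p‖) * J p)) ∂μ
      = ∫⁻ p, (∫⁻ s in Ioi (0 : ℝ), {x : ℝ × F | ‖x.2‖ < x.1}.indicator (fun x : ℝ × F => ENNReal.ofReal x.1⁻¹ * g x.1 * J x.2) (s, p)) ∂μ :=
    lintegral_congr_ae (hae.mono fun p hp => hin p hp)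
  -- (4) Tonelli again
  have hsw2 : ∫⁻ p, (∫⁻ s in Ioi (0 : ℝ), {x : ℝ × F | ‖x.2‖ < x.1}.indicator (fun x : ℝ × F => ENNReal.ofReal x.1⁻¹ * g x.1 * J x.2) (s, p)) ∂μ
      = ∫⁻ s in Ioi (0 : ℝ), ∫⁻ p, {x : ℝ × F | ‖x.2‖ < x.1}.indicator (fun x : ℝ × F => ENNReal.ofReal x.1⁻¹ * g x.1 * J x.2) (s, p) ∂μ := by
    refine lintegral_lintegral_swap (Measurable.aemeasurable ?_)
    exact hK.comp measurable_swap
  -- (5) the mass of the balls
  have hC : ∫⁻ s in Ioi (0 : ℝ), ∫⁻ p, {x : ℝ × F | ‖x.2‖ < x.1}.indicator (fun x : ℝ × F => ENNReal.ofReal x.1⁻¹ * g x.1 * J x.2) (s, p) ∂μ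
      = G * c := by
    have h1 : EqOn (fun s : ℝ => ∫⁻ p, {x : ℝ × F | ‖x.2‖ < x.1}.indicator (fun x : ℝ × F => ENNReal.ofReal x.1⁻¹ * g x.1 * J x.2) (s, p) ∂μ)
        (fun s => g s * ENNReal.ofReal (s ^ (d - 1)) * c) (Ioi (0 : ℝ)) := by
      intro s hs
      have hs0 : (0 : ℝ) < s := hs
      have e1 : (fun p : F => {x : ℝ × F | ‖x.2‖ < x.1}.indicator (fun x : ℝ × F => ENNReal.ofReal x.1⁻¹ * g x.1 * J x.2) (s, p))
          = (ball (0 : F) s).indicator fun p => ENNReal.ofReal s⁻¹ * g s * J p := by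
        funext p
        by_cases hp : ‖p‖ < s
        · rw [indicator_of_mem (show (s, p) ∈ {x : ℝ × F | ‖x.2‖ < x.1} from hp),
            indicator_of_mem (show p ∈ ball (0 : F) s from mem_ball_zero_iff.2 hp)]
        · rw [indicator_of_notMem (show (s, p) ∉ {x : ℝ × F | ‖x.2‖ < x.1} from hp),
            indicator_of_notMem (show p ∉ ball (0 : F) s from fun h => hp (mem_ball_zero_iff.1 h))]
      simp only
      rw [e1, lintegral_indicator measurableSet_ball, lintegral_const_mul _ hJ, kitp_ball hsc hJ hom hs0, ← hc]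
      have e2 : ENNReal.ofReal s⁻¹ * ENNReal.ofReal (s ^ d) = ENNReal.ofReal (s ^ (d - 1)) := by
        rw [← ENNReal.ofReal_mul (inv_nonneg.2 hs0.le)]
        congr 1
        have : s ^ d = s ^ (d - 1) * s := by
          rw [← pow_succ]
          congr 1
          omega
        rw [this]
        field_simp
      calc ENNReal.ofReal s⁻¹ * g s * (ENNReal.ofReal (s ^ d) * c)
          = g s * (ENNReal.ofReal s⁻¹ * ENNReal.ofReal (s ^ d)) * c := by ring
        _ = g s * ENNReal.ofReal (s ^ (d - 1)) * c := by rw [e2]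
    rw [setLIntegral_congr_fun measurableSet_Ioi h1, lintegral_mul_const _ (by fun_prop), ← hG]
  -- (6) conclusion
  have hfinal : I * ENNReal.ofReal (1 / d) = G * c := by
    rw [← hA, hsw1, hB, hsw2, hC]
  have hdR : (0 : ℝ) < (d : ℝ) := by exact_mod_cast hd
  have h1 : ENNReal.ofReal (1 / d) * ENNReal.ofReal d = 1 := by
    rw [← ENNReal.ofReal_mul (by positivity), one_div, inv_mul_cancel₀ hdR.ne', ENNReal.ofReal_one]
  calc I = I * (ENNReal.ofReal (1 / d) * ENNReal.ofReal d) := by rw [h1, mul_one]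
    _ = I * ENNReal.ofReal (1 / d) * ENNReal.ofReal d := by ring
    _ = ENNReal.ofReal d * G * c := by rw [hfinal]; ring

end Claimed.Agent.R323
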