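import Claimed.Agent.R323.Kit.Tube

/-!
# Row 323, block K (KIT), K3: THE LINK OF A `MinCone`, ITS MEASURE, INTEGRATION BY PARTS.   Architect: helper99.   Prefix `kit_`.

`Σ = kitLk S = gmtBd S ∩ sphere 0 1`,   `σ = kitSg S = (k-1) · (x ↦ x/|x|)_# (μ_S ⌞ B_1)`   (`= H^{k-2} ⌞ Σ`, but nobody needs to know that).
Users: F (`IxGeom`), E (cut-offs, width of the tube), A.      `u = gmtSimSd S`, `U` = the conic tube of `kit_tube`.

LEAVES (each = one `sorry`; recipes in the docstrings).   NOTHING here uses charts, Hausdorff measure or the polar decomposition.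
-/

set_option autoImplicit false
open scoped ContDiff ENNReal NNReal RealInnerProductSpace Topology
open MeasureTheory Metric Set Filter

namespace Claimed.Agent.R323

open Claimed.Agent.Gmt

variable {k : ℕ}

/-- the link of the cone. -/
def kitLk (S : Set (E k)) : Set (E k) := gmtBd S ∩ sphere 0 1

/-- the radial projection. -/
noncomputable def kitRp (x : E k) : E k := ‖x‖⁻¹ • x

/-- the measure of the link. -/
noncomputable def kitSg (S : Set (E k)) : Measure (E k) :=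
  ENNReal.ofReal ((k : ℝ) - 1) • ((gmtMu S).restrict (ball 0 1)).map kitRp

/-- smooth `0`-homogeneous functions on the conic open set `U` (= smooth functions near the link). -/
structure KitFun (U : Set (E k)) (f : E k → ℝ) : Prop where
  smooth : ContDiffOn ℝ ∞ f U
  hom : ∀ x ∈ U, ∀ t : ℝ, 0 < t → f (t • x) = f x

/-- the data which all users carry around: the conic tube of the cone `S`. -/
structure KitTube (S U : Set (E k)) : Prop where
  cone : GmtSimCone S U (gmtSimSd S)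
  conic : ∀ x ∈ U, ∀ t : ℝ, 0 < t → t • x ∈ U

theorem kit_tube' {S : Set (E k)} (hS : MinCone k S) : ∃ U, KitTube S U := by
  obtain ⟨U, h1, h2⟩ := kit_tube hS
  exact ⟨U, h1, h2⟩

/-! ### K3.0 topology -/

theorem kit_lk_compact (S : Set (E k)) : IsCompact (kitLk S) :=
  (isCompact_sphere (0 : E k) 1).inter_left (isClosed_gmtBd S)

theorem kit_lk_sub {S U : Set (E k)} (hU : KitTube S U) : kitLk S ⊆ U := by
  intro x hx
  refine hU.cone.bd x hx.1 ?_
  intro h0
  have := hx.2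
  rw [h0] at this
  simp at this

theorem kit_rp_norm {x : E k} (hx : x ≠ 0) : ‖kitRp x‖ = 1 := by
  unfold kitRp
  rw [norm_smul, norm_inv, norm_norm, inv_mul_cancel₀ (norm_ne_zero_iff.2 hx)]

theorem kit_rp_mem {S : Set (E k)} (hc : GmtCone S) {x : E k} (hx : x ∈ gmtBd S) (hx0 : x ≠ 0) :
    kitRp x ∈ kitLk S :=
  ⟨(gmtSim_bd_smul hc (inv_pos.2 (norm_pos_iff.2 hx0)) x).2 hx, by simpa using kit_rp_norm hx0⟩

theorem kit_rp_measurable : Measurable (kitRp : E k → E k) :=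
  (measurable_norm.inv).smul measurable_id

theorem kit_rp_smul {t : ℝ} (ht : 0 < t) (x : E k) : kitRp (t • x) = kitRp x := by
  unfold kitRp
  rw [norm_smul, Real.norm_eq_abs, abs_of_pos ht, smul_smul, mul_inv, mul_assoc, mul_comm _ t, ← mul_assoc,
    inv_mul_cancel₀ ht.ne', one_mul]

theorem kit_norm_smul_rp (x : E k) : ‖x‖ • kitRp x = x := by
  unfold kitRp
  by_cases hx : x = 0
  · simp [hx]
  · rw [smul_smul, mul_inv_cancel₀ (norm_ne_zero_iff.2 hx), one_smul]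

theorem kit_rp_contDiffAt {x : E k} (hx : x ≠ 0) : ContDiffAt ℝ ∞ (kitRp : E k → E k) x :=
  ((contDiffAt_norm ℝ hx).inv (norm_ne_zero_iff.2 hx)).smul contDiffAt_id

theorem kit_rp_notMem {S U : Set (E k)} (hU : KitTube S U) {z : E k} (hz : z ∉ U) : kitRp z ∉ U := by
  intro h
  by_cases hz0 : z = 0
  · have : kitRp z = 0 := by simp [kitRp, hz0]
    rw [this] at h
    exact hU.cone.zero h
  · have := hU.conic _ h ‖z‖ (norm_pos_iff.2 hz0)
    rw [kit_norm_smul_rp] at this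
    exact hz this

/-- LEAF K3-W (uniform width).  Compactness of the link: `x ↦ infDist x Uᶜ` is positive and continuous on the compact `kitLk S`, so `≥ 2δ`;
`|sd z| = infDist z (gmtBd S)` (`gmtSim_abs_sd`); for `‖z‖ = 1`, `|sd z| < δ ≤ 1/2`: a nearest point `p` of the closed set `gmtBd S`, `p ≠ 0`,
`‖p/‖p‖ - z‖ ≤ 2 ‖p - z‖ < 2δ`; general `z` by homogeneity (`gmtSim_sd_smul`, `conic`). -/
theorem kit_width {S U : Set (E k)} (hS : MinCone k S) (hU : KitTube S U) :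
    ∃ δ : ℝ, 0 < δ ∧ ∀ z : E k, z ≠ 0 → |gmtSimSd S z| < δ * ‖z‖ → z ∈ U := by
  obtain ⟨δ₀, hδ₀, hsub⟩ := (kit_lk_compact S).exists_thickening_subset_open hU.cone.opn (kit_lk_sub hU)
  have hne : (gmtBd S).Nonempty := ⟨0, hS.vert⟩
  have key : ∀ z : E k, ‖z‖ = 1 → |gmtSimSd S z| < min (δ₀ / 2) (1 / 2) → z ∈ U := by
    intro z hz hlt
    rw [gmtSim_abs_sd, Metric.infDist_lt_iff hne] at hlt
    obtain ⟨p, hp, hd⟩ := hlt
    have hd1 : dist z p < δ₀ / 2 := lt_of_lt_of_le hd (min_le_left _ _)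
    have hd2 : dist z p < 1 / 2 := lt_of_lt_of_le hd (min_le_right _ _)
    have hn : |‖z‖ - ‖p‖| ≤ dist z p := by
      rw [dist_eq_norm]
      exact abs_norm_sub_norm_le z p
    rw [hz] at hn
    have hn' := abs_le.1 hn
    have hp0 : 0 < ‖p‖ := by linarith [hn'.2]
    have hp0' : p ≠ 0 := norm_pos_iff.1 hp0
    have hq : kitRp p ∈ kitLk S := kit_rp_mem hS.cone hp hp0'
    have hpq : dist p (kitRp p) = |‖p‖ - 1| := by
      have : p - kitRp p = (‖p‖ - 1) • kitRp p := by rw [sub_smul, one_smul, kit_norm_smul_rp]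
      rw [dist_eq_norm, this, norm_smul, kit_rp_norm hp0', mul_one, Real.norm_eq_abs]
    have hzq : dist z (kitRp p) < δ₀ := by
      have h1 := dist_triangle z p (kitRp p)
      rw [hpq] at h1
      have h2 : |‖p‖ - 1| ≤ dist z p := by rw [abs_sub_comm]; exact hn
      linarith
    exact hsub (Metric.mem_thickening_iff.2 ⟨_, hq, hzq⟩)
  refine ⟨min (δ₀ / 2) (1 / 2), by positivity, fun z hz0 hlt => ?_⟩
  have hzn : 0 < ‖z‖ := norm_pos_iff.2 hz0
  have h1 : kitRp z ∈ U := by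
    refine key _ (kit_rp_norm hz0) ?_
    unfold kitRp
    rw [gmtSim_sd_smul hS.cone (inv_pos.2 hzn), abs_mul, abs_of_pos (inv_pos.2 hzn), inv_mul_lt_iff₀ hzn, mul_comm]
    exact hlt
  have := hU.conic _ h1 ‖z‖ hzn
  rwa [kit_norm_smul_rp] at this

/-- LEAF K3-CUT (conic cut-off).  `ζ z = η ((sd z)² / ‖z‖²)`, `η` smooth, `= 1` on `[0, δ²/4]`, `= 0` on `[δ²/2, ∞)` (`Real.smoothTransition`), `δ` of `kit_width`.
Smooth at `z ∈ U` (composition), and `= 0` near every `z ∉ U`, `z ≠ 0` (`sd` is continuous: `|sd| = infDist`, or 1-Lipschitz). -/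
theorem kit_cutoff {S U : Set (E k)} (hS : MinCone k S) (hU : KitTube S U) :
    ∃ ζ : E k → ℝ, Hom0 ζ ∧ (∀ z, 0 ≤ ζ z ∧ ζ z ≤ 1) ∧ (∀ z, z ≠ 0 → z ∉ U → ∀ᶠ y in 𝓝 z, ζ y = 0) ∧
      ∀ x ∈ gmtBd S, x ≠ 0 → ∀ᶠ y in 𝓝 x, ζ y = 1 := by
  obtain ⟨ζ₀, hζ, h1, h01⟩ := gmtSim_exists_cutoff (kit_lk_compact S) hU.cone.opn (kit_lk_sub hU)
  refine ⟨fun z => ζ₀ (kitRp z), ⟨?_, fun t ht x => by simp only [kit_rp_smul ht]⟩, fun z => h01 _, ?_, ?_⟩
  · intro x hx
    exact (hζ.smooth.contDiffAt.comp x (kit_rp_contDiffAt hx)).contDiffWithinAt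
  · intro z hz0 hz
    have h2 : kitRp z ∉ tsupport ζ₀ := fun h => kit_rp_notMem hU hz (hζ.sub h)
    have h3 : ∀ᶠ y in 𝓝 (kitRp z), ζ₀ y = 0 := notMem_tsupport_iff_eventuallyEq.1 h2
    exact (kit_rp_contDiffAt hz0).continuousAt.eventually h3
  · intro x hx hx0
    have h3 : ∀ᶠ y in 𝓝 (kitRp x), ζ₀ y = 1 :=
      h1.filter_mono (nhds_le_nhdsSet (kit_rp_mem hS.cone hx hx0))
    exact (kit_rp_contDiffAt hx0).continuousAt.eventually h3

/-- LEAF K3-EXT (extension).  `f̃ = ζ f` (`0` off `U`). -/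
theorem kit_extend {S U : Set (E k)} (hS : MinCone k S) (hU : KitTube S U) {f : E k → ℝ} (hf : KitFun U f) :
    ∃ g : E k → ℝ, Hom0 g ∧ ∀ x ∈ gmtBd S, x ≠ 0 → g =ᶠ[𝓝 x] f := by
  obtain ⟨ζ, hζ, -, h0, h1⟩ := kit_cutoff hS hU
  refine ⟨fun z => ζ z * f z, ⟨?_, ?_⟩, ?_⟩
  · intro x hx
    by_cases hxU : x ∈ U
    · exact ((hζ.smooth.contDiffAt (isOpen_compl_singleton.mem_nhds hx)).mul
        (hf.smooth.contDiffAt (hU.cone.opn.mem_nhds hxU))).contDiffWithinAt
    · have : (fun z => ζ z * f z) =ᶠ[𝓝 x] fun _ => 0 := by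
        filter_upwards [h0 x hx hxU] with y hy
        rw [hy, zero_mul]
      exact (contDiffAt_const.congr_of_eventuallyEq this).contDiffWithinAt
  · intro t ht x
    simp only [hζ.hom t ht x]
    by_cases hxU : x ∈ U
    · rw [hf.hom x hxU t ht]
    · by_cases hx0 : x = 0
      · rw [hx0, smul_zero]
      · rw [(h0 x hx0 hxU).self_of_nhds, zero_mul, zero_mul]
  · intro x hx hx0
    filter_upwards [h1 x hx hx0] with y hy
    rw [hy, one_mul]

theorem Hom0.kitFun {U : Set (E k)} (h0 : (0 : E k) ∉ U) {f : E k → ℝ} (hf : Hom0 f) : KitFun U f :=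
  ⟨hf.smooth.mono fun x hx h => h0 (h ▸ hx), fun x _ t ht => hf.hom t ht x⟩

/-- LEAF K3-FULL.  If `⟪e, y⟫ = 0` on the link then on `gmtBd S` (cone); `S` is a.e. constant on the two open half spaces (`gmtSim_trivial_of_connected`, see the proof of
`gmtSim_half_of_bd_subset`); `0 ∈ gmtBd S` excludes `∅` and `univ`; so `S = gmtHalf 0 (± e)` a.e. -/
theorem kit_full {S : Set (E k)} (hS : MinCone k S) (hnf : ¬ IsHalf S) (e : E k) (he : ‖e‖ = 1) :
    ∃ y ∈ kitLk S, ⟪e, y⟫ ≠ 0 := by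
  by_contra hcon
  push Not at hcon
  have he0 : e ≠ 0 := fun h0 => by rw [h0, norm_zero] at he; exact zero_ne_one he
  have hsub : ∀ x ∈ gmtBd S, ⟪x, e⟫ = 0 := by
    intro x hx
    by_cases hx0 : x = 0
    · rw [hx0, inner_zero_left]
    · have h1 := hcon _ (kit_rp_mem hS.cone hx hx0)
      unfold kitRp at h1
      rw [inner_smul_right, mul_eq_zero] at h1
      rcases h1 with h1 | h1
      · exact absurd (inv_eq_zero.1 h1) (norm_ne_zero_iff.2 hx0)
      · rw [real_inner_comm]; exact h1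
  have hd1 : Disjoint {x : E k | ⟪x, e⟫ < 0} (gmtBd S) := by
    rw [disjoint_left]
    intro x hx hxS
    have h1 : ⟪x, e⟫ < 0 := hx
    rw [hsub x hxS] at h1
    exact lt_irrefl _ h1
  have hd2 : Disjoint {x : E k | 0 < ⟪x, e⟫} (gmtBd S) := by
    rw [disjoint_left]
    intro x hx hxS
    have h1 : 0 < ⟪x, e⟫ := hx
    rw [hsub x hxS] at h1
    exact lt_irrefl _ h1
  have hH : volume {y : E k | ⟪y, e⟫ = 0} = 0 := gmt_volume_hyperplane he0 0
  have hv := hS.vert 1 one_pos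
  rcases gmtSim_trivial_of_connected hS.meas (gmtSim_isOpen_lt e 0) (gmtSim_convex_lt e).isPreconnected hd1 with h1 | h1 <;>
  rcases gmtSim_trivial_of_connected hS.meas (gmtSim_isOpen_gt e 0) (gmtSim_convex_gt e).isPreconnected hd2 with h2 | h2
  · -- `S` is null
    refine hv.1.ne' (measure_mono_null (t := (S ∩ {x : E k | ⟪x, e⟫ < 0}) ∪ (S ∩ {x : E k | 0 < ⟪x, e⟫}) ∪ {y : E k | ⟪y, e⟫ = 0}) (fun x hx => ?_)
      (measure_union_null (measure_union_null h1 h2) hH))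
    rcases lt_trichotomy ⟪x, e⟫ 0 with h | h | h
    · exact Or.inl (Or.inl ⟨hx.1, h⟩)
    · exact Or.inr h
    · exact Or.inl (Or.inr ⟨hx.1, h⟩)
  · -- `S` is the upper half space
    refine hnf ⟨-e, by rw [norm_neg, he], ?_⟩
    rw [ae_eq_set]
    constructor
    · refine measure_mono_null (t := (S ∩ {x : E k | ⟪x, e⟫ < 0}) ∪ {y : E k | ⟪y, e⟫ = 0}) (fun x hx => ?_) (measure_union_null h1 hH)
      have hx2 : ¬ ⟪x, -e⟫ < 0 := fun hlt => hx.2 (gmtSim_mem_half.2 hlt)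
      rw [inner_neg_right, neg_lt_zero, not_lt] at hx2
      rcases hx2.eq_or_lt with heq | hlt
      · exact Or.inr heq
      · exact Or.inl ⟨hx.1, hlt⟩
    · refine measure_mono_null (fun x hx => ?_) h2
      have h3 := gmtSim_mem_half.1 hx.1
      rw [inner_neg_right, neg_lt_zero] at h3
      exact ⟨h3, hx.2⟩
  · -- `S` is the lower half space
    refine hnf ⟨e, he, ?_⟩
    rw [ae_eq_set]
    constructor
    · refine measure_mono_null (t := (S ∩ {x : E k | 0 < ⟪x, e⟫}) ∪ {y : E k | ⟪y, e⟫ = 0}) (fun x hx => ?_) (measure_union_null h2 hH)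
      have hx2 : ¬ ⟪x, e⟫ < 0 := fun hlt => hx.2 (gmtSim_mem_half.2 hlt)
      rcases (not_lt.1 hx2).eq_or_lt with heq | hlt
      · exact Or.inr heq.symm
      · exact Or.inl ⟨hx.1, hlt⟩
    · have hs : gmtHalf 0 e \ S ⊆ {x : E k | ⟪x, e⟫ < 0} \ S := fun x hx => ⟨gmtSim_mem_half.1 hx.1, hx.2⟩
      exact measure_mono_null hs h1
  · -- the complement of `S` is null
    refine hv.2.ne' (measure_mono_null (t := ({x : E k | ⟪x, e⟫ < 0} \ S) ∪ ({x : E k | 0 < ⟪x, e⟫} \ S) ∪ {y : E k | ⟪y, e⟫ = 0}) (fun x hx => ?_)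
      (measure_union_null (measure_union_null h1 h2) hH))
    rcases lt_trichotomy ⟪x, e⟫ 0 with h | h | h
    · exact Or.inl (Or.inl ⟨h, hx.2⟩)
    · exact Or.inr h
    · exact Or.inl (Or.inr ⟨h, hx.2⟩)

end Claimed.Agent.R323
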